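import Vale.Agent.P328.BT

/-! The annealing algorithm on bit strings and its running time. -/

namespace Vale.Agent.P328

open Vale.Agent.PT Vale.Agent.P317

structure Fam where
  wB : List Bool → List Bool → ℕ
  k0 : List Bool → ℕ → ℕ
  fs : List Bool → ℕ → Bool
  sg : List Bool → ℕ → Bool
  a0 : List Bool → ℕ → ℕ → ℕ

variable (F : Fam) (z : List Bool) (p : Par)

def isA (s : ℕ) (l : List Bool) : Bool :=
  isT p l && bit l (2 * (s / (2 * p.A)) + b2n (F.fs z (s / (2 * p.A))))

def fld (t g : ℕ) (b : Bool) : ℕ :=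
  F.k0 z (2 * g + b2n b) + cond (xor b (F.fs z g)) 0 (min (2 * p.A) (t - 2 * p.A * g))

def cntA (H : ℕ → List Bool) (s : ℕ) : ℕ := sumR p.Q fun q => b2n (isA F z p s (smp p H s q))

def aexp (H : ℕ → List Bool) (t i j : ℕ) : ℕ :=
  F.a0 z i j + (p.L - t) + 2 * sumR t fun s => b2n (!Nat.ble (cntT p H s) (cntN p H s i j))

def expo (H : ℕ → List Bool) (t : ℕ) (l : List Bool) : ℕ :=
  sumR p.m (fun g => cond (bit l (2 * g + 1)) (fld F z p t g true) 0 +
      cond (bit l (2 * g)) (fld F z p t g false) 0) + (cond (isT p l) p.L 0 +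
    sumR p.m fun i => sumR p.m fun j => cond (isN p l i j) (aexp F z p H t i j) 0)

def Wi (H : ℕ → List Bool) (t : ℕ) (l : List Bool) : ℕ :=
  cond (typ p l) (F.wB z l * 2 ^ expo F z p H t l) 0

def init : List Bool := mapR (2 * p.m) fun v => !xor (Nat.beq (v % 2) 1) (F.sg z (v / 2))

def cur (H : ℕ → List Bool) (g : ℕ) : List Bool := cond (Nat.beq (g % p.B) 0) (init F z p) (H (g - 1))

def okm (H : ℕ → List Bool) (t : ℕ) (l c : List Bool) : Bool :=
  (Nat.ble (gp p c + 1) p.m && (Nat.ble (gs p c + 1) p.m && (bit l (ixp p c) && !bit l (ixs p c)))) &&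
    decide (valU ((c.drop (2 * p.κ + 2)).take (max (Wi F z p H t l) (Wi F z p H t (prop p l c))).size) <
      Wi F z p H t (prop p l c))

def move (H : ℕ → List Bool) (t : ℕ) (l c : List Bool) : List Bool :=
  mapR (2 * p.m) fun v => bit (cond (okm F z p H t l c) (prop p l c) l) v

def trj (ρ : List Bool) : ℕ → List Bool
  | 0 => []
  | g + 1 => trj ρ g ++ move F z p (blk p (trj ρ g)) (stg p g) (cur F z p (blk p (trj ρ g)) g)
      (chunk p ρ g)

def numE (H : ℕ → List Bool) : ℕ := prodR p.L fun t => cntT p H t + cntA F z p H t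

def denE (H : ℕ → List Bool) : ℕ := prodR p.L fun t => cntT p H t

class Poly (F : Fam) : Prop where
  wB : BT fun x : List Bool × List Bool => F.wB x.1 x.2
  k0 : PT Bool fun x : List Bool × ℕ => F.k0 x.1 x.2
  fs : PT Bool fun x : List Bool × ℕ => F.fs x.1 x.2
  sg : PT Bool fun x : List Bool × ℕ => F.sg x.1 x.2
  a0 : PT Bool fun x : List Bool × ℕ × ℕ => F.a0 x.1 x.2.1 x.2.2

end Vale.Agent.P328

namespace Vale.Agent.P328

open Vale.Agent.PT Vale.Agent.P317

variable {α : Type} [Ctx Bool α] (F : Fam) [h : Poly F] {z l c : α → List Bool} {p : α → Par}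
  {i j s t g : α → ℕ} {b : α → Bool} {H : α → ℕ → List Bool}

@[fun_prop] theorem bt_wB (hz : PT Bool z) (hl : PT Bool l) : BT fun a => F.wB (z a) (l a) :=
  h.wB.comp (g := fun a => (z a, l a)) (by fun_prop)

@[fun_prop] theorem pt_k0 (hz : PT Bool z) (hi : PT Bool i) : PT Bool fun a => F.k0 (z a) (i a) :=
  h.k0.comp (g := fun a => (z a, i a)) (by fun_prop)

@[fun_prop] theorem pt_fs (hz : PT Bool z) (hi : PT Bool i) : PT Bool fun a => F.fs (z a) (i a) :=
  h.fs.comp (g := fun a => (z a, i a)) (by fun_prop)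

@[fun_prop] theorem pt_sg (hz : PT Bool z) (hi : PT Bool i) : PT Bool fun a => F.sg (z a) (i a) :=
  h.sg.comp (g := fun a => (z a, i a)) (by fun_prop)

@[fun_prop] theorem pt_a0 (hz : PT Bool z) (hi : PT Bool i) (hj : PT Bool j) :
    PT Bool fun a => F.a0 (z a) (i a) (j a) :=
  h.a0.comp (g := fun a => (z a, i a, j a)) (by fun_prop)

@[fun_prop] theorem pt_isA (hz : PT Bool z) (hp : PT Bool p) (hs : PT Bool s) (hl : PT Bool l) :
    PT Bool fun a => isA F (z a) (p a) (s a) (l a) := by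
  unfold isA; fun_prop

@[fun_prop] theorem pt_fld (hz : PT Bool z) (hp : PT Bool p) (ht : PT Bool t) (hg : PT Bool g)
    (hb : PT Bool b) : PT Bool fun a => fld F (z a) (p a) (t a) (g a) (b a) := by
  unfold fld; fun_prop

@[fun_prop] theorem pt_cntA (hz : PT Bool z) (hp : PT Bool p)
    (hH : PT Bool fun x : α × ℕ => H x.1 x.2) (hs : PT Bool s) :
    PT Bool fun a => cntA F (z a) (p a) (H a) (s a) := by
  unfold cntA; fun_prop

@[fun_prop] theorem pt_aexp (hz : PT Bool z) (hp : PT Bool p)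
    (hH : PT Bool fun x : α × ℕ => H x.1 x.2) (hs : PT Bool s) (hi : PT Bool i) (hj : PT Bool j) :
    PT Bool fun a => aexp F (z a) (p a) (H a) (s a) (i a) (j a) := by
  unfold aexp; fun_prop

@[fun_prop] theorem pt_expo (hz : PT Bool z) (hp : PT Bool p)
    (hH : PT Bool fun x : α × ℕ => H x.1 x.2) (hs : PT Bool s) (hl : PT Bool l) :
    PT Bool fun a => expo F (z a) (p a) (H a) (s a) (l a) := by
  unfold expo; fun_prop

@[fun_prop] theorem bt_Wi (hz : PT Bool z) (hp : PT Bool p)
    (hH : PT Bool fun x : α × ℕ => H x.1 x.2) (hs : PT Bool s) (hl : PT Bool l) :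
    BT fun a => Wi F (z a) (p a) (H a) (s a) (l a) := by
  unfold Wi; fun_prop

@[fun_prop] theorem pt_init (hz : PT Bool z) (hp : PT Bool p) :
    PT Bool fun a => init F (z a) (p a) := by
  unfold init; fun_prop

@[fun_prop] theorem pt_cur (hz : PT Bool z) (hp : PT Bool p)
    (hH : PT Bool fun x : α × ℕ => H x.1 x.2) (hs : PT Bool s) :
    PT Bool fun a => cur F (z a) (p a) (H a) (s a) := by
  unfold cur; fun_prop

@[fun_prop] theorem pt_okm (hz : PT Bool z) (hp : PT Bool p)
    (hH : PT Bool fun x : α × ℕ => H x.1 x.2) (ht : PT Bool t) (hl : PT Bool l) (hc : PT Bool c) :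
    PT Bool fun a => okm F (z a) (p a) (H a) (t a) (l a) (c a) := by
  unfold okm; fun_prop

@[fun_prop] theorem pt_move (hz : PT Bool z) (hp : PT Bool p)
    (hH : PT Bool fun x : α × ℕ => H x.1 x.2) (ht : PT Bool t) (hl : PT Bool l) (hc : PT Bool c) :
    PT Bool fun a => move F (z a) (p a) (H a) (t a) (l a) (c a) := by
  unfold move; fun_prop

omit h in
theorem length_trj (z : List Bool) (p : Par) (ρ : List Bool) (g : ℕ) :
    (trj F z p ρ g).length = g * (2 * p.m) := by
  induction g with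
  | zero => simp [trj]
  | succ g ih => simp [trj, move, ih, Nat.succ_mul]

@[fun_prop] theorem pt_trj (hz : PT Bool z) (hp : PT Bool p) (hl : PT Bool l) (hg : PT Bool g) :
    PT Bool fun a => trj F (z a) (p a) (l a) (g a) :=
  PT.natRec hg (fun a i => trj F (z a) (p a) (l a) i) (PT.const _)
    (fun x => x.2.2 ++ move F (z x.1) (p x.1) (blk (p x.1) x.2.2) (stg (p x.1) x.2.1)
      (cur F (z x.1) (p x.1) (blk (p x.1) x.2.2) x.2.1) (chunk (p x.1) (l x.1) x.2.1))
    (by fun_prop) (fun _ _ => rfl)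
    ⟨fun a => g a * (2 * (p a).m), PT.pb (by fun_prop), fun a i hi => by
      rw [length_trj]; exact Nat.mul_le_mul_right _ hi⟩

@[fun_prop] theorem bt_numE (hz : PT Bool z) (hp : PT Bool p)
    (hH : PT Bool fun x : α × ℕ => H x.1 x.2) : BT fun a => numE F (z a) (p a) (H a) := by
  unfold numE; fun_prop

omit h in
@[fun_prop] theorem bt_denE (hp : PT Bool p)
    (hH : PT Bool fun x : α × ℕ => H x.1 x.2) : BT fun a => denE (p a) (H a) := by
  unfold denE; exact BT.prodR' (by fun_prop) (BT.ofU (by fun_prop))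

end Vale.Agent.P328
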