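import Vale.Agent.P337.CH1

/-! Polynomial-time arithmetic on binary numbers. -/

namespace Vale.Agent.P328

open Vale.Agent.PT Vale.Agent.P317 Vale.Agent.P337 Finset

variable {α β : Type} [Ctx Bool α] [Ctx Bool β]

@[fun_prop] def BT (f : α → ℕ) : Prop := PT Bool fun a => Bin.mk (f a)

def car (d : ℕ → ℕ) : ℕ → ℕ
  | 0 => 0
  | i + 1 => (d i + car d i) / 2

theorem car_sum (d : ℕ → ℕ) (k : ℕ) :
    ∑ i ∈ range k, (d i + car d i) % 2 * 2 ^ i + car d k * 2 ^ k = ∑ i ∈ range k, d i * 2 ^ i := by
  induction k with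
  | zero => simp [car]
  | succ k ih =>
    rw [sum_range_succ, sum_range_succ, ← ih, car, pow_succ]
    have := Nat.mod_add_div (d k + car d k) 2
    set u := (d k + car d k) % 2
    set v := (d k + car d k) / 2
    have e : (u + 2 * v) * 2 ^ k = (d k + car d k) * 2 ^ k := by rw [this]
    linarith

theorem car_le (d : ℕ → ℕ) (c : ℕ) (h : ∀ i, d i ≤ c) (i : ℕ) : car d i ≤ c := by
  induction i with
  | zero => simp [car]
  | succ i ih => have := h i; simp only [car]; omega

theorem valU_mapR (k : ℕ) (g : ℕ → Bool) : valU (mapR k g) = ∑ i ∈ range k, b2n (g i) * 2 ^ i := by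
  induction k generalizing g with
  | zero => simp [mapR, valU]
  | succ k ih =>
    have : mapR (k + 1) g = g 0 :: mapR k fun i => g (i + 1) := by
      simp [mapR, List.range_succ_eq_map, Function.comp_def]
    rw [this, sum_range_succ', valU, List.foldr_cons, ← valU, ih, mul_sum, add_comm]
    simp only [pow_zero, mul_one]
    congr 1
    exact sum_congr rfl fun i _ => by ring

theorem bits_sum {u k : ℕ} (h : u.size ≤ k) : ∑ i ∈ range k, b2n (u.testBit i) * 2 ^ i = u := by
  rw [← valU_mapR]
  refine Nat.eq_of_testBit_eq fun i => ?_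
  rw [testBit_valU]
  by_cases hi : i < k
  · rw [bit_mapR _ hi]
  · rw [bit_of_le (by simpa using hi), Nat.testBit_lt_two_pow]
    exact (Nat.lt_size_self u).trans_le (Nat.pow_le_pow_right (by norm_num) (by omega))

namespace BT

variable {f g : α → ℕ}

theorem congr (hf : BT f) (h : ∀ a, f a = g a) : BT g := PT.congr hf fun a => by rw [h]

theorem comp {f : β → ℕ} {g : α → β} (hf : BT f) (hg : PT Bool g) : BT fun a => f (g a) :=
  PT.comp (f := fun b => Bin.mk (f b)) hf hg

theorem bits (hf : BT f) : PT Bool fun a => (f a).bits := pt_bits hf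

theorem size (hf : BT f) : PT Bool fun a => (f a).size := pt_bsize hf

theorem testBit {i : α → ℕ} (hf : BT f) (hi : PT Bool i) : PT Bool fun a => (f a).testBit (i a) :=
  pt_testBit hf hi

theorem cap {i : α → ℕ} (hf : BT f) (hi : PT Bool i) : PT Bool fun a => min (f a) (i a) := pt_cap hf hi

theorem toU {i : α → ℕ} (hf : BT f) (hi : PT Bool i) (h : ∀ a, f a ≤ i a) : PT Bool f :=
  (hf.cap hi).congr fun a => min_eq_left (h a)

theorem lt (hf : BT f) (hg : BT g) : PT Bool fun a => decide (f a < g a) := by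
  have := pt_toBool (pt_lt hf hg)
  exact this.congr fun a => by simp only [Bin.val_mk]; congr

theorem div2 {i : α → ℕ} (hf : BT f) (hi : PT Bool i) : BT fun a => f a / 2 ^ i a := pt_div2 hf hi

theorem mod2 {i : α → ℕ} (hf : BT f) (hi : PT Bool i) : BT fun a => f a % 2 ^ i a := pt_mod2 hf hi

theorem pow2 {i : α → ℕ} (hi : PT Bool i) : BT fun a => 2 ^ i a := pt_pow2 hi

theorem ofList {l : α → List Bool} (hl : PT Bool l) : BT fun a => valU (l a) := pt_mk hl

theorem cond' {c : α → Bool} (hc : PT Bool c) (hf : BT f) (hg : BT g) :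
    BT fun a => cond (c a) (f a) (g a) :=
  (PT.cond' hc hf hg).congr fun a => by beta_reduce; cases c a <;> rfl

theorem digits {d : α → ℕ → ℕ} {k : α → ℕ} (hd : PT Bool fun x : α × ℕ => d x.1 x.2)
    (hk : PT Bool k) : BT fun a => ∑ i ∈ range (k a), d a i * 2 ^ i := by
  let e : α → ℕ → ℕ := fun a i => cond (Nat.ble (k a) i) 0 (d a i)
  have he : PT Bool fun x : α × ℕ => e x.1 x.2 := by unfold e; fun_prop
  let c : α → ℕ := fun a => sumR (k a) (d a)
  have hc : PT Bool c := by unfold c; fun_prop
  have h1 : ∀ a i, e a i ≤ c a := fun a i => by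
    simp only [e, c, sumR]
    by_cases h : k a ≤ i
    · rw [Nat.ble_eq_true_of_le h]; simp
    · rw [Bool.eq_false_iff.2 fun h' => h (Nat.le_of_ble_eq_true h')]
      exact single_le_sum (f := d a) (fun _ _ => Nat.zero_le _) (mem_range.2 (not_le.1 h))
  have hcar : PT Bool fun x : α × ℕ => car (e x.1) x.2 :=
    PT.natRecN (m := fun x : α × ℕ => x.2) (by fun_prop) (fun x i => car (e x.1) i) (PT.const _)
      (fun y => (e y.1.1 y.2.1 + y.2.2) / 2) (by fun_prop) (fun _ _ => rfl)
      ⟨fun x => c x.1, PT.pb (by fun_prop), fun x i _ => car_le _ _ (h1 x.1) i⟩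
  have h2 : PT Bool fun a => mapR (k a + c a) fun i => Nat.beq ((e a i + car (e a) i) % 2) 1 := by
    fun_prop
  refine (ofList h2).congr fun a => ?_
  have h3 : ∀ j, car (e a) (k a + j) ≤ c a - j := by
    intro j
    induction j with
    | zero => exact car_le _ _ (h1 a) _
    | succ j ih =>
      rw [← add_assoc, car]
      have : e a (k a + j) = 0 := by simp only [e]; rw [Nat.ble_eq_true_of_le (by omega)]; rfl
      omega
  have h4 := car_sum (e a) (k a + c a)
  rw [show car (e a) (k a + c a) = 0 by have := h3 (c a); omega, zero_mul, add_zero] at h4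
  have h5 : ∑ i ∈ range (k a + c a), e a i * 2 ^ i = ∑ i ∈ range (k a), d a i * 2 ^ i := by
    rw [← sum_subset (range_mono (Nat.le_add_right (k a) (c a))) fun i _ hi => by
      simp only [e]; rw [Nat.ble_eq_true_of_le (by simpa using hi)]; simp]
    refine sum_congr rfl fun i hi => ?_
    simp only [e]
    rw [Bool.eq_false_iff.2 fun h' => absurd (mem_range.1 hi) (not_lt.2 (Nat.le_of_ble_eq_true h'))]
    rfl
  rw [valU_mapR, ← h5, ← h4]
  refine sum_congr rfl fun i _ => ?_
  rcases Nat.mod_two_eq_zero_or_one (e a i + car (e a) i) with h | h <;> rw [h] <;> rfl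

theorem ofU (hf : PT Bool f) : BT f :=
  (digits (d := fun a _ => f a) (k := fun _ => 1) (by fun_prop) (PT.const _)).congr fun a => by simp

theorem const (n : ℕ) : BT fun _ : α => n := PT.const _

theorem sum {F : α → ℕ → ℕ} {k : α → ℕ} (hF : BT fun x : α × ℕ => F x.1 x.2) (hk : PT Bool k) :
    BT fun a => ∑ t ∈ range (k a), F a t := by
  have h1 := hF.size
  have h2 : PT Bool fun y : (α × ℕ) × ℕ => (F y.1.1 y.2).testBit y.1.2 :=
    (hF.comp (g := fun y : (α × ℕ) × ℕ => (y.1.1, y.2)) (by fun_prop)).testBit (by fun_prop)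
  refine (digits (d := fun a i => sumR (k a) fun t => b2n ((F a t).testBit i))
    (k := fun a => sumR (k a) fun t => (F a t).size) (by fun_prop) (by fun_prop)).congr fun a => ?_
  simp only [sumR, sum_mul]
  rw [sum_comm]
  exact sum_congr rfl fun t ht => bits_sum
    (single_le_sum (f := fun t => (F a t).size) (fun _ _ => Nat.zero_le _) ht)

theorem add (hf : BT f) (hg : BT g) : BT fun a => f a + g a :=
  (sum (F := fun a t => cond (Nat.beq t 0) (f a) (g a)) (k := fun _ => 2)
    (cond' (by fun_prop) (hf.comp (by fun_prop)) (hg.comp (by fun_prop))) (PT.const _)).congr fun a => by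
      simp [sum_range_succ, Nat.beq]

theorem shift {i : α → ℕ} (hf : BT f) (hi : PT Bool i) : BT fun a => f a * 2 ^ i a := by
  refine (ofList ((PT.replicate hi false).append hf.bits)).congr fun a => ?_
  induction i a with
  | zero => simp [valU_bits]
  | succ k ih => rw [List.replicate_succ, List.cons_append, valU_cons, ih, pow_succ]; simp [Nat.bit]; ring

theorem mul (hf : BT f) (hg : BT g) : BT fun a => f a * g a := by
  have h1 : PT Bool fun x : α × ℕ => (f x.1).testBit x.2 := (hf.comp (by fun_prop)).testBit (by fun_prop)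
  refine (sum (F := fun a t => cond ((f a).testBit t) (g a * 2 ^ t) 0) (k := fun a => (f a).size)
    (cond' h1 ((hg.comp (by fun_prop)).shift (by fun_prop)) (const 0)) hf.size).congr fun a => ?_
  conv_rhs => rw [← bits_sum (le_refl (f a).size), sum_mul]
  refine sum_congr rfl fun t _ => ?_
  cases (f a).testBit t <;> simp [b2n, mul_comm]

theorem prod {F : α → ℕ → ℕ} {k : α → ℕ} (hF : BT fun x : α × ℕ => F x.1 x.2) (hk : PT Bool k) :
    BT fun a => ∏ t ∈ range (k a), F a t := by
  have h1 := hF.size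
  have h := PT.natRec hk (fun a i => (∏ t ∈ range i, F a t).bits) (by simpa using PT.const _)
    (fun x => (valU x.2.2 * F x.1 x.2.1).bits)
    (((ofList (by fun_prop)).mul (hF.comp (g := fun x : α × ℕ × List Bool => (x.1, x.2.1))
      (by fun_prop))).bits) (fun a i => by simp only [valU_bits, prod_range_succ])
    ⟨fun a => sumR (k a) (fun t => (F a t).size) + 1, PT.pb (by fun_prop), fun a i hi => ?_⟩
  · exact (ofList h).congr fun a => valU_bits _
  · rw [Nat.size_eq_bits_len, Nat.size_le]
    calc ∏ t ∈ range i, F a t ≤ ∏ t ∈ range i, 2 ^ (F a t).size :=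
          prod_le_prod' fun t _ => (Nat.lt_size_self _).le
      _ ≤ 2 ^ sumR (k a) (fun t => (F a t).size) := by
          rw [prod_pow_eq_pow_sum]
          exact Nat.pow_le_pow_right (by norm_num) (sum_le_sum_of_subset (range_mono hi))
      _ < _ := Nat.pow_lt_pow_right (by norm_num) (Nat.lt_succ_self _)

theorem pow {i : α → ℕ} (hf : BT f) (hi : PT Bool i) : BT fun a => f a ^ i a :=
  (prod (F := fun a _ => f a) (hf.comp (by fun_prop)) hi).congr fun a => by simp

theorem fact {i : α → ℕ} (hi : PT Bool i) : BT fun a => (i a).factorial :=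
  (prod (F := fun _ t => t + 1) (ofU (by fun_prop)) hi).congr fun a => prod_range_add_one_eq_factorial _

theorem max' (hf : BT f) (hg : BT g) : BT fun a => max (f a) (g a) :=
  (cond' (hf.lt hg) hg hf).congr fun a => by
    by_cases h : f a < g a
    · simp [h, h.le]
    · simp [h, not_lt.1 h]

end BT

attribute [fun_prop] BT.const BT.comp BT.ofU BT.add BT.mul BT.pow BT.fact BT.max' BT.cond' BT.ofList
  BT.div2 BT.size BT.lt BT.bits BT.pow2 BT.cap

@[fun_prop] theorem BT.id' : BT fun a : ℕ => a := BT.ofU PT.id'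

def prodR (m : ℕ) (g : ℕ → ℕ) : ℕ := ∏ i ∈ range m, g i

@[fun_prop] theorem BT.prodR' {F : α → ℕ → ℕ} {k : α → ℕ} (hk : PT Bool k)
    (hF : BT fun x : α × ℕ => F x.1 x.2) : BT fun a => prodR (k a) (F a) := BT.prod hF hk

@[fun_prop] theorem BT.sumR' {F : α → ℕ → ℕ} {k : α → ℕ} (hk : PT Bool k)
    (hF : BT fun x : α × ℕ => F x.1 x.2) : BT fun a => sumR (k a) (F a) := BT.sum hF hk

end Vale.Agent.P328
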