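import Vale.Agent.P328.Link

/-! The parameters satisfy all side conditions. -/

namespace Vale.Agent.P328

open Finset Vale.Agent.P317

theorem pw {y : ℕ} (hy : 100 ≤ y) (c a b : ℕ) (h : a + 4 ≤ b ∧ c ≤ 100 ^ 4 ∨ a ≤ b ∧ c ≤ 100 ^ (b - a)) :
    c * y ^ a ≤ y ^ b := by
  have h' : a ≤ b ∧ c ≤ 100 ^ (b - a) := h.elim
    (fun h => ⟨by omega, h.2.trans (Nat.pow_le_pow_right (by norm_num) (by omega))⟩) id
  obtain ⟨d, rfl⟩ := Nat.exists_eq_add_of_le h'.1
  rw [Nat.add_sub_cancel_left] at h'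
  rw [pow_add, mul_comm]
  exact Nat.mul_le_mul_left _ (h'.2.trans (Nat.pow_le_pow_left hy d))

structure HZ (z : List Bool) : Prop where
  hm : 0 < mZ z
  hl : mZ z + nZ z ≤ z.length
  bal : ∑ i : Fin (mZ z), sZ z i = ∑ j : Fin (nZ z), sZ z (mZ z + j)

variable {z : List Bool}

theorem y100 (z : List Bool) : 100 ≤ yZ z := by unfold yZ; omega

theorem HZ.xy (h : HZ z) : mZ z + nZ z + 100 ≤ yZ z := by have := h.hl; unfold yZ; omega

theorem size_s (u : ℕ) : (sZ z u).size ≤ yZ z := by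
  rw [Nat.size_le, sZ]
  refine (P337.valU_lt _).trans_le (Nat.pow_le_pow_right (by norm_num) ?_)
  have := length_skip (rest (rest (wZ z))) u
  simp only [List.length_take, rest, bZ, List.length_drop, yZ, wZ] at this ⊢
  omega

theorem theta : yZ z ^ 28 < 2 ^ θZ z ∧ 2 ^ θZ z ≤ 2 * yZ z ^ 28 + 1 := by
  unfold θZ; exact ⟨Nat.lt_size_self _, pow_size_le _⟩

theorem soft {u : ℕ} (h : sf z u = true) : u ≠ oZ z ∧ yZ z ^ 28 * 2 ^ dd z u ≤ sZ z u ∧
    sZ z u < 5 * yZ z ^ 28 * 2 ^ dd z u := by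
  simp only [sf, Bool.and_eq_true, Bool.not_eq_true', ← Bool.not_eq_true, Nat.beq_eq, Nat.ble_eq] at h
  obtain ⟨t1, t2⟩ := theta (z := z)
  have e : (sZ z u).size = θZ z + dd z u + 1 := by unfold dd; omega
  have a1 : 2 ^ (θZ z + dd z u) ≤ sZ z u := Nat.lt_size.1 (by omega)
  have a2 := Nat.lt_size_self (sZ z u)
  have a3 : 2 ≤ yZ z ^ 28 := (by have := y100 z; omega : 2 ≤ yZ z).trans (Nat.le_self_pow (by norm_num) _)
  rw [e, pow_succ, pow_add] at a2
  rw [pow_add] at a1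
  refine ⟨h.1, (Nat.mul_le_mul_right _ t1.le).trans a1, a2.trans_le ?_⟩
  rw [mul_right_comm]
  exact Nat.mul_le_mul_right _ (by omega)

theorem hard {u : ℕ} (h0 : u ≠ oZ z) (h : sf z u = false) : dd z u = 0 ∧ sZ z u ≤ 2 * yZ z ^ 28 := by
  simp only [sf, ← Bool.not_eq_true, Bool.and_eq_true, Bool.not_eq_true', Nat.beq_eq, Nat.ble_eq] at h
  have a : (sZ z u).size ≤ θZ z := by
    by_contra hc
    exact h ⟨by simpa using h0, by omega⟩
  have := Nat.size_le.1 a
  have := (theta (z := z)).2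
  exact ⟨by unfold dd; omega, by omega⟩

theorem best_max (k : ℕ) : ∀ i < k, sZ z i ≤ sZ z (best z k) := by
  induction k with
  | zero => simp
  | succ k ih =>
    intro i hi
    rw [best, cond_ite decide_eq_true_iff]
    split_ifs with h
    · rcases Nat.lt_succ_iff_lt_or_eq.1 hi with h1 | rfl
      exacts [(ih i h1).trans h.le, le_rfl]
    · rcases Nat.lt_succ_iff_lt_or_eq.1 hi with h1 | rfl
      exacts [ih i h1, not_lt.1 h]

theorem HZ.le_o (h : HZ z) (u : Fin (mZ z) ⊕ Fin (nZ z)) : sZ z (idx u) ≤ yZ z * sZ z (oZ z) := by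
  have a : ∀ i : Fin (mZ z), sZ z i ≤ sZ z (oZ z) := fun i => by rw [oZ]; exact best_max _ _ i.2
  have := h.xy
  rcases u with i | j
  · exact (a i).trans (Nat.le_mul_of_pos_left _ (by omega))
  · refine (single_le_sum (f := fun j : Fin (nZ z) => sZ z (mZ z + j)) (fun _ _ => Nat.zero_le _)
      (mem_univ j)).trans (h.bal.ge.trans ((sum_le_card_nsmul _ _ _ fun i _ => a i).trans ?_))
    simp only [card_univ, Fintype.card_fin, smul_eq_mul]
    exact Nat.mul_le_mul_right _ (by omega)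

theorem col_ne (h : 0 < mZ z) (j : ℕ) : mZ z + j ≠ oZ z := by
  have := best_le z (mZ z)
  rw [oZ]; omega

theorem HZ.ok (h : HZ z) : (TZ z h.hm).OK (yZ z) fun u => yZ z ^ 25 * 2 ^ dd z (idx u) := by
  have hy := y100 z
  have xy := h.xy
  have hd : ∀ (e : Fin (mZ z) × Fin (nZ z)) u, inc e u → idx u ≠ oZ z → de z e.1 e.2 ≤ dd z (idx u) := by
    intro e u he hu
    rw [de, cond_ite (P := e.1.val = oZ z) Nat.beq_eq.to_iff]
    rcases he with rfl | rfl
    · exact (if_neg hu).trans_le (min_le_left _ _)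
    · split_ifs
      exacts [le_rfl, min_le_right _ _]
  have hD : ∀ u, sf z (idx u) = true → yZ z ^ 27 * 2 ^ dd z (idx u) ≤ sZ z (oZ z) := fun u hu =>
    Nat.le_of_mul_le_mul_left (((soft hu).2.1.trans (h.le_o u)).trans' (le_of_eq (by ring))) (by omega)
  have r1 : RZ z + 1 ≤ 3 * yZ z ^ 18 := by
    have := Nat.one_le_pow 18 (yZ z) (by omega); unfold RZ; omega
  refine ⟨by omega, by change 0 < KZ z; unfold KZ; positivity, h.bal, by simp [TZ, sf, idx],
    fun _ => Nat.two_pow_pos _, fun _ => Nat.two_pow_pos _, fun e u he hu => ?_, fun e u he h1 h2 => ?_,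
    fun e => ?_, fun u hu => ?_⟩
  · exact Nat.pow_le_pow_right (by norm_num) (hd e u he (soft hu).1)
  · have h3 := idx_o.not.2 h1
    change 2 ^ de z e.1 e.2 = 1
    rw [Nat.le_zero.1 ((hd e u he h3).trans (hard h3 h2).1.le)]; rfl
  · have : ∃ u, inc e u ∧ idx u ≠ oZ z ∧ de z e.1 e.2 = dd z (idx u) := by
      rw [de, cond_ite (P := e.1.val = oZ z) Nat.beq_eq.to_iff]
      split_ifs with h1
      · exact ⟨_, Or.inr rfl, col_ne h.hm _, rfl⟩
      · rcases min_choice (dd z e.1) (dd z (mZ z + e.2)) with h2 | h2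
        exacts [⟨_, Or.inl rfl, h1, h2⟩, ⟨_, Or.inr rfl, col_ne h.hm _, h2⟩]
    obtain ⟨u, a1, a2, a3⟩ := this
    refine ⟨u, a1, idx_o.not.1 a2, ?_⟩
    simp only [Tb.W, TZ, a3, KZ]
    split_ifs with a4
    · have := (soft a4).2.2
      have := Nat.mul_le_mul_right (2 ^ dd z (idx u)) (r1.trans (Nat.mul_le_mul_left 3
        (Nat.pow_le_pow_right (by omega) (show 18 ≤ 28 by norm_num))))
      nlinarith [Nat.two_pow_pos (dd z (idx u))]
    · obtain ⟨b1, b2⟩ := hard a2 (by simpa using a4)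
      rw [b1]; omega
  · have b1 := Nat.two_pow_pos (dd z (idx u))
    refine ⟨((pw hy 4 3 25 (by norm_num)).trans (Nat.le_mul_of_pos_right _ b1)), ?_, ?_⟩
    · simp only [Tb.W, hu, if_true]
      refine le_trans ?_ (soft hu).2.1
      change _ + (RZ z + 1) * 2 ^ dd z (idx u) ≤ _
      rw [← add_mul]
      exact Nat.mul_le_mul_right _ (by linarith [pw hy 2 25 28 (by norm_num), pw hy 6 18 28 (by norm_num)])
    · have c1 : 2 * (yZ z * (yZ z ^ 25 * 2 ^ dd z (idx u))) ≤ sZ z (oZ z) := le_trans (by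
        have := Nat.mul_le_mul_right (2 ^ dd z (idx u)) (pw hy 2 26 27 (by norm_num))
        linarith) (hD u hu)
      have c2 : ∀ v, 2 * yZ z * (TZ z h.hm).W v ≤ sZ z (oZ z) := fun v => by
        unfold Tb.W; split_ifs with hv
        · refine le_trans ?_ (hD v hv)
          change _ * ((RZ z + 1) * 2 ^ dd z (idx v)) ≤ _
          rw [← mul_assoc]
          refine Nat.mul_le_mul_right _ ((Nat.mul_le_mul_left _ r1).trans ?_)
          linarith [pw hy 6 19 27 (by norm_num)]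
        · simp
      have c3 := sum_le_card_nsmul univ _ _ fun v _ => c2 v
      rw [← mul_sum, smul_eq_mul, card_univ, Fintype.card_sum, Fintype.card_fin, Fintype.card_fin] at c3
      have c4 : yZ z * (2 * ∑ v, (TZ z h.hm).W v) ≤ yZ z * sZ z (oZ z) :=
        le_trans (le_of_eq (by ring)) (c3.trans (Nat.mul_le_mul_right _ (by omega)))
      have := Nat.le_of_mul_le_mul_left c4 (by omega)
      change _ ≤ sZ z (oZ z)
      omega

theorem HZ.ok2 (h : HZ z) : (TZ z h.hm).OK2 (yZ z) := by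
  have xy := h.xy
  have := Nat.one_le_pow 28 (yZ z) (by omega)
  refine ⟨by omega, by omega, fun u hu => ?_, fun u hu => ?_, by change 2 ≤ KZ z; unfold KZ; omega⟩
  · rw [ex_eq, exa, Bool.and_eq_true, Bool.not_eq_true', Bool.not_eq_true'] at hu
    have := (hard (by simpa [← Bool.not_eq_true] using hu.1) hu.2).2
    change sZ z (idx u) + 2 ≤ KZ z
    unfold KZ; omega
  · refine (soft hu).2.2.le.trans (Nat.mul_le_mul_right _ ?_)
    change _ ≤ KZ z
    unfold KZ; omega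

theorem L2 (z : List Bool) : 2 ≤ LZ z := by
  have := Nat.one_le_pow 88 (yZ z) (by have := y100 z; omega)
  unfold LZ; omega

variable {p : Par} (hp : p.m = (mZ z + 1) * (nZ z + 1) * KZ z)

theorem HZ.ps (h : HZ z) : (PZ z h.hm hp).OK (KZ z) := by
  have hy := y100 z
  have l2 : (2 : ℝ) ≤ LZ z := by exact_mod_cast L2 z
  refine h.ok.ps _ h.ok2 (by positivity) (by rw [div_lt_one (by linarith)]; linarith) ?_ ?_ ?_
  · rw [mul_one_div, div_le_one (by linarith)]
    have : 4 * KZ z ^ 2 ≤ LZ z := by unfold KZ LZ; linarith [pw hy 4 56 88 (by norm_num)]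
    exact_mod_cast this
  · rw [mul_one_div, div_le_one (by linarith)]
    have : 2 * μZ z ≤ LZ z := by unfold μZ LZ; linarith [pw hy 16 26 88 (by norm_num)]
    exact_mod_cast this
  · rw [mul_one_div, div_mul_eq_mul_div, div_le_iff₀ (by linarith)]
    have : 4 * KZ z ^ 4 * (2 * yZ z ^ 2) ≤ μZ z * LZ z := by unfold μZ LZ KZ; exact le_of_eq (by ring)
    exact_mod_cast this

theorem HZ.eZ_le (h : HZ z) (I : Finset (Fin p.m × Bool)) : (PZ z h.hm hp).eZ I ≤ EZ z := by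
  have hy := y100 z
  have xy := h.xy
  refine ((h.ps hp).eZ_le (h.ok.tu_le _ h.ok2 (h.ps hp)) I).trans (Int.ofNat_le.2 ?_)
  refine (add_le_add (Nat.mul_le_mul_left _ (Nat.mul_le_mul_right _ h.ok2.card))
    (Nat.mul_le_mul_right _ (show _ ≤ yZ z by simp; omega))).trans ?_
  change μZ z * (_ * KZ z ^ 2) + _ * (_ * KZ z ^ 2) ^ 2 ≤ _
  unfold μZ KZ EZ
  linarith [pw hy 131072 84 120 (by norm_num), pw hy 131072 117 120 (by norm_num)]

theorem HZ.lay (h : HZ z) : ∃ wb ≤ yZ z ^ 210, ∃ ρ ≤ (2 : ℝ) ^ ρZ z, Lay ((h.ps hp).base (LZ z ^ EZ z))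
    (PZ z h.hm hp).B ((TZ z h.hm).σ (eZ z h.hm hp)) ((TZ z h.hm).rl (eZ z h.hm hp)) wb ρ := by
  have hy := y100 z
  have l2 : (2 : ℝ) ≤ LZ z := by exact_mod_cast L2 z
  refine ⟨_, ?_, _, ?_, (h.ps hp).lay (h.ok.tu_le _ h.ok2 (h.ps hp)) ?_ (le_trans (by norm_num) h.ok2.K2) (L2 z)
    rfl (h.eZ_le hp) rfl (Tb.dum _) (Tb.two _) (h.ok2.exd _)⟩
  · refine (add_le_add_left (Nat.mul_le_mul_right _ h.ok2.card) _).trans ?_
    change _ * KZ z ^ 2 + _ ≤ _
    unfold KZ LZ EZ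
    linarith [pw hy 256 58 210 (by norm_num), pw hy 128 208 210 (by norm_num)]
  · have : (2 * KZ z) ^ 6 ≤ 2 ^ ρZ z := by
      unfold ρZ KZ
      linarith [pw hy 16777216 168 172 (by norm_num), Nat.lt_size_self (yZ z ^ 172)]
    exact_mod_cast this
  · change 4 * (1 / LZ z : ℝ) * (μZ z * (2 * KZ z + 1) + KZ z * (2 * (4 * yZ z ^ 2 * KZ z ^ 2) + KZ z) + 1 : ℕ) ≤ 1
    rw [mul_one_div, div_mul_eq_mul_div, div_le_one (by linarith)]
    have : 4 * (μZ z * (2 * KZ z + 1) + KZ z * (2 * (4 * yZ z ^ 2 * KZ z ^ 2) + KZ z) + 1) ≤ LZ z := by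
      unfold μZ KZ LZ
      linarith [pw hy 32768 54 88 (by norm_num), pw hy 2048 26 88 (by norm_num), pw hy 1024 86 88 (by norm_num),
        pw hy 256 56 88 (by norm_num), pw hy 4 0 88 (by norm_num)]
    exact_mod_cast this

include hp in
theorem HZ.R_le (h : HZ z) :
    (2 : ℝ) ^ ρZ z * ((Fintype.card (Fin p.m) + 1) ^ 3 * 2 ^ ρZ z + 1) + 8 ≤ (yZ z ^ 441 : ℕ) := by
  have hy := y100 z
  have xy := h.xy
  have a1 : 2 ^ ρZ z ≤ 3 * yZ z ^ 172 := by
    have := pow_size_le (yZ z ^ 172)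
    have := Nat.one_le_pow 172 (yZ z) (by omega)
    unfold ρZ; omega
  have a2 : p.m + 1 ≤ yZ z ^ 31 := by
    have : p.m ≤ yZ z * yZ z * KZ z := by rw [hp]; gcongr <;> omega
    unfold KZ at this
    linarith [pw hy 16 30 31 (by norm_num), pw hy 2 0 31 (by norm_num)]
  have : 2 ^ ρZ z * ((p.m + 1) ^ 3 * 2 ^ ρZ z + 1) + 8 ≤ yZ z ^ 441 := by
    refine le_trans (b := 3 * yZ z ^ 172 * ((yZ z ^ 31) ^ 3 * (3 * yZ z ^ 172) + 1) + 8) (by gcongr) ?_
    have b1 := pw hy 27 437 441 (by norm_num)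
    have b2 := pw hy 9 172 441 (Or.inl (by norm_num))
    have b3 := pw hy 24 0 441 (Or.inl (by norm_num))
    linarith
  rw [Fintype.card_fin]
  exact_mod_cast this

theorem HZ.apx (h : HZ z) : ∃ a b : ℝ, (∏ e, (TZ z h.hm).De e : ℕ) *
    ∑ y ∈ Fintype.piFinset fun _ => range (KZ z + 1), (TZ z h.hm).f (1 / LZ z) ((TZ z h.hm).cv (μZ z)) y =
      a + b ∧ Close (1 / (8 * yZ z : ℕ)) a ((TS (TZ z h.hm).o (TZ z h.hm).s).card *
        ∏ u, if (TZ z h.hm).sf u then (TZ z h.hm).D u * (TZ z h.hm).Γ (1 / LZ z) else 1) ∧ 0 ≤ a ∧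
      0 ≤ b ∧ b ≤ 1 / (8 * yZ z : ℕ) := by
  have hy := y100 z
  have xy := h.xy
  have l2 : (2 : ℝ) ≤ LZ z := by exact_mod_cast L2 z
  have y0 : (100 : ℝ) ≤ yZ z := by exact_mod_cast hy
  have r1 : RZ z + 1 ≤ 3 * yZ z ^ 18 := by
    have := Nat.one_le_pow 18 (yZ z) (by omega); unfold RZ; omega
  have r2 : yZ z ^ 18 + (2 * yZ z + 2) ≤ RZ z := by
    unfold RZ; linarith [pw hy 4 1 18 (by norm_num)]
  obtain ⟨a, b, a1, a2, a3, a4⟩ := h.ok.apx (ε := 1 / LZ z) (by positivity)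
    (by rw [div_le_div_iff₀ (by linarith) (by norm_num)]; linarith) (cv := (TZ z h.hm).cv (μZ z))
    (C := μZ z * (2 * yZ z ^ 2 * KZ z ^ 2)) (fun y hy => ⟨by unfold Tb.cv; positivity, by
      unfold Tb.cv
      push_cast
      refine mul_le_mul_of_nonneg_left ((sum_le_card_nsmul _ _ ((KZ z : ℤ) ^ 2) fun q _ => ?_).trans ?_)
        (by positivity)
      · have := h.ok2.K2
        have : (TZ z h.hm).sd (Tb.nn y) q ≤ (TZ z h.hm).K := by
          rcases q with ⟨⟨_ | i, _ | j⟩, _ | _⟩ <;> simp only [Tb.sd, Tb.nn, cond_true, cond_false, hy] <;> omega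
        exact_mod_cast Nat.pow_le_pow_left this 2
      · rw [nsmul_eq_mul]
        exact mul_le_mul_of_nonneg_right (by exact_mod_cast h.ok2.card) (by positivity)⟩)
    (le_trans (Nat.le_add_left _ _) r2)
  have hM : (0 : ℝ) ≤ (TS (TZ z h.hm).o (TZ z h.hm).s).card *
      ∏ u, if (TZ z h.hm).sf u then (TZ z h.hm).D u * (TZ z h.hm).Γ (1 / LZ z) else 1 := by
    have : (0 : ℝ) < 1 - 1 / LZ z := by rw [sub_pos, div_lt_one (by linarith)]; linarith
    refine mul_nonneg (by positivity) (prod_nonneg fun u _ => ?_)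
    unfold Tb.Γ; split_ifs <;> positivity
  have ha : 0 ≤ a := nonneg_of_mul_nonneg_right (hM.trans a2.2) (Real.exp_pos _)
  refine ⟨a, b, a1, a2.mono ?_ ha hM, ha, a3, a4.trans ?_⟩
  · rw [show (1 : ℝ) / (8 * yZ z : ℕ) = 1 / (16 * yZ z) + yZ z * (1 / (16 * yZ z ^ 2)) by
      push_cast; field_simp; ring]
    refine add_le_add ?_ ((sum_le_card_nsmul _ _ (1 / (16 * yZ z ^ 2) : ℝ) fun u _ => ?_).trans ?_)
    · rw [mul_one_div, div_mul_eq_mul_div, div_le_div_iff₀ (by linarith) (by linarith)]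
      have : 2 * (μZ z * (2 * yZ z ^ 2 * KZ z ^ 2) + yZ z * (KZ z ^ 2 * ((2 * yZ z + 2) *
          (2 * RZ z + (2 * yZ z + 2))))) * (16 * yZ z) ≤ 1 * LZ z := by
        refine le_trans (b := 2 * (μZ z * (2 * yZ z ^ 2 * KZ z ^ 2) + yZ z * (KZ z ^ 2 * ((3 * yZ z) *
          (3 * RZ z)))) * (16 * yZ z)) (by gcongr <;> omega) ?_
        unfold μZ KZ RZ LZ
        linarith [pw hy 65536 85 88 (by norm_num), pw hy 1152 77 88 (by norm_num)]
      exact_mod_cast this
    · unfold Tb.W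
      split_ifs
      · rw [← mul_div_assoc, div_le_div_iff₀ (by positivity) (by positivity)]
        have : (RZ z + 1) * 2 ^ dd z (idx u) * (4 * yZ z ^ 3) * (16 * yZ z ^ 2) ≤
            1 * (yZ z ^ 25 * 2 ^ dd z (idx u)) := by
          refine le_trans (b := 3 * yZ z ^ 18 * 2 ^ dd z (idx u) * (4 * yZ z ^ 3) * (16 * yZ z ^ 2))
            (by gcongr) ?_
          linarith [Nat.mul_le_mul_right (2 ^ dd z (idx u)) (pw hy 192 23 25 (by norm_num))]
        exact_mod_cast this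
      · simp
    · rw [nsmul_eq_mul]
      refine mul_le_mul_of_nonneg_right ?_ (by positivity)
      simp only [card_univ, Fintype.card_sum, Fintype.card_fin]
      exact_mod_cast (by omega)
  · have b1 : ∏ e, ((TZ z h.hm).K + 1) * (TZ z h.hm).De e ≤ 2 ^ (30 * yZ z ^ 3) := by
      refine (prod_le_pow_card _ _ (2 ^ (30 * yZ z)) fun e _ => ?_).trans ?_
      · have c1 : KZ z + 1 ≤ (2 ^ yZ z) ^ 29 := by
          refine le_trans ?_ (Nat.pow_le_pow_left Nat.lt_two_pow_self.le _)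
          unfold KZ
          linarith [pw hy 16 28 29 (by norm_num), pw hy 2 0 29 (by norm_num)]
        have c2 : de z e.1 e.2 ≤ yZ z := by
          have := size_s (z := z) (mZ z + e.2)
          unfold de dd
          cases Nat.beq e.1 (oZ z) <;> simp only [cond_true, cond_false] <;> omega
        refine (Nat.mul_le_mul c1 (Nat.pow_le_pow_right (by norm_num) c2)).trans (le_of_eq ?_)
        rw [← pow_mul, ← pow_add]; congr 1; ring
      · rw [← pow_mul]
        refine Nat.pow_le_pow_right (by norm_num) ?_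
        simp only [card_univ, Fintype.card_prod, Fintype.card_fin]
        calc _ ≤ 30 * yZ z * (yZ z * yZ z) := by gcongr <;> omega
          _ = _ := by ring
    have b2 : (2 : ℝ) ^ (30 * yZ z ^ 3) ≤ Real.exp (30 * yZ z ^ 3 : ℕ) := by
      rw [← mul_one ((30 * yZ z ^ 3 : ℕ) : ℝ), Real.exp_nat_mul]
      gcongr
      linarith [Real.add_one_le_exp 1]
    have b3 : yZ z ^ 4 * LZ z ≤ KZ z ^ 2 * (RZ z - (2 * yZ z + 2)) ^ 2 := by
      refine le_trans (b := KZ z ^ 2 * (yZ z ^ 18) ^ 2) (le_of_eq ?_) (by gcongr; omega)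
      unfold KZ LZ; ring
    have b4 : (1 - 1 / LZ z : ℝ) ^ (KZ z ^ 2 * (RZ z - (2 * yZ z + 2)) ^ 2) ≤ Real.exp (-(yZ z ^ 4 : ℕ)) := by
      have c0 : (0 : ℝ) ≤ 1 - 1 / LZ z := by rw [sub_nonneg, div_le_one (by linarith)]; linarith
      refine (pow_le_pow_of_le_one c0 (sub_le_self _ (by positivity)) b3).trans
        ((pow_le_pow_left₀ c0 (Real.one_sub_le_exp_neg _) _).trans (le_of_eq ?_))
      rw [← Real.exp_nat_mul]
      congr 1
      push_cast; field_simp
    refine (mul_le_mul (le_trans (by exact_mod_cast b1) b2) b4 (by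
      have c0 : (0 : ℝ) ≤ 1 - 1 / LZ z := by rw [sub_nonneg, div_le_one (by linarith)]; linarith
      positivity) (by positivity)).trans ?_
    rw [← Real.exp_add, le_div_iff₀ (by positivity)]
    refine (mul_le_mul_of_nonneg_left ((le_add_of_nonneg_right zero_le_one).trans (Real.add_one_le_exp _))
      (by positivity)).trans ?_
    rw [← Real.exp_add, Real.exp_le_one_iff]
    have : 30 * yZ z ^ 3 + 8 * yZ z ≤ yZ z ^ 4 := by
      linarith [pw hy 60 3 4 (by norm_num), pw hy 16 1 4 (by norm_num)]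
    have : ((30 * yZ z ^ 3 : ℕ) : ℝ) + (8 * yZ z : ℕ) ≤ (yZ z ^ 4 : ℕ) := by exact_mod_cast this
    linarith

end Vale.Agent.P328
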