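import Vale.Agent.P328.Run

/-! Parsing of the input and the approximation scheme. -/

namespace Vale.Agent.P328

open Finset Vale.Agent.P317 Vale.Agent.PT

theorem lead_un (k : ℕ) (z : List Bool) : lead (unary k ++ z) = k := by
  induction k with
  | zero => simp [lead, unary]
  | succ k ih =>
    simp only [lead, unary, List.replicate_succ, List.cons_append, List.foldr_cons, cond_true] at ih ⊢
    rw [ih]

theorem length_un (k : ℕ) : (unary k).length = k + 1 := by simp [unary]

theorem rest_un (k : ℕ) (z : List Bool) : rest (unary k ++ z) = z := by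
  rw [rest, lead_un]
  exact List.drop_left' (length_un k)

theorem skip_iter (L : List ℕ) (u : ℕ) : skip^[u] (L.flatMap binary) = (L.drop u).flatMap binary := by
  induction u generalizing L with
  | zero => rfl
  | succ u ih =>
    rw [Function.iterate_succ_apply]
    cases L with
    | nil => simpa [skip, rest] using ih []
    | cons a L => simp [skip, binary, List.append_assoc, rest_un, lead_un, ih]

theorem binVal_bits (a : ℕ) : binVal a.bits = a := by
  induction a using Nat.binaryRec' with
  | zero => rfl
  | bit b n h ih => rw [Nat.bits_append_bit n b h, binVal, List.foldr_cons, ← binVal, ih]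

theorem length_input (k l : ℕ) (w : List Bool) : (input k l w []).length = k + l + 2 * w.length + 3 := by
  simp only [input, List.length_append, length_un, List.length_nil]; omega

theorem cut_input (k l : ℕ) (w ρ : List Bool) :
    (input k l w ρ).take (cut (input k l w ρ)) = input k l w [] ∧
      (input k l w ρ).drop (cut (input k l w ρ)) = ρ := by
  have e : cut (input k l w ρ) = (input k l w []).length := by
    rw [length_input]; simp only [cut, input, List.append_assoc, lead_un, rest_un]; omega
  have e2 : input k l w ρ = input k l w [] ++ ρ := by simp [input]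
  rw [e, e2]
  exact ⟨List.take_left' rfl, List.drop_left' rfl⟩

theorem tables_eq {m n m' n' : ℕ} (hm : m' = m) (hn : n' = n) (r : Fin m → ℕ) (c : Fin n → ℕ)
    (hb : ∑ i, r i = ∑ j, c j) (o : Fin m') (s : ℕ → ℕ) (h1 : ∀ i, s i.val = r i)
    (h2 : ∀ j, s (m' + j.val) = c j) :
    tables r c = (TS o fun u : Fin m' ⊕ Fin n' => s (idx u)).card := by
  subst hm hn
  rw [tables, ← Set.ncard_coe_finset, ← Set.ncard_image_of_injective _ (Equiv.curry _ _ _).injective]
  congr 1
  ext X
  obtain ⟨X, rfl⟩ := (Equiv.curry _ _ _).surjective X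
  rw [(Equiv.curry _ _ _).injective.mem_set_image, mem_coe]
  refine ⟨fun h => (mem_TS o).2 fun u _ => ?_, fun h => ⟨fun i => ?_, fun j => ?_⟩⟩
  · rcases u with i | j
    exacts [(h.1 i).trans (h1 i).symm, (h.2 j).trans (h2 j).symm]
  · by_cases hi : i = o
    · have := mg_o o h
      rw [← add_sum_erase _ _ (mem_univ o)] at hb
      simp only [idx, Sum.elim_inl, Sum.elim_inr, h1, h2, ← hb] at this
      subst hi
      exact Nat.add_right_cancel this
    · exact ((mem_TS o).1 h (.inl i) (by simpa using hi)).trans (h1 i)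
  · exact ((mem_TS o).1 h (.inr j) (by simp)).trans (h2 j)

section

variable {m n : ℕ} (r : Fin m → ℕ) (c : Fin n → ℕ) (k l : ℕ)

theorem parse : lead (rest (input k l (code r c) [])) = l ∧ mZ (input k l (code r c) []) = m ∧
    nZ (input k l (code r c) []) = n ∧ (∀ i, sZ (input k l (code r c) []) i.val = r i) ∧
      ∀ j, sZ (input k l (code r c) []) (m + j.val) = c j := by
  have e : wZ (input k l (code r c) []) = code r c := by
    simp only [wZ, input, List.append_assoc, rest_un, List.append_nil]
  have e2 : ∀ u (h : u < (List.ofFn r ++ List.ofFn c).length),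
      sZ (input k l (code r c) []) u = (List.ofFn r ++ List.ofFn c)[u] := fun u h => by
    rw [sZ, bZ, e, code]
    simp only [List.append_assoc, rest_un, ← List.flatMap_append, skip_iter]
    rw [List.drop_eq_getElem_cons h]
    simp only [List.flatMap_cons, binary, List.append_assoc, rest_un, lead_un, List.take_left', P337.valU_bits]
  refine ⟨by simp only [input, List.append_assoc, rest_un, lead_un], ?_, ?_, fun i => ?_, fun j => ?_⟩
  · rw [mZ, e]; simp only [code, List.append_assoc, lead_un]
  · rw [nZ, e]; simp only [code, List.append_assoc, rest_un, lead_un]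
  · rw [e2 _ (by simp; omega)]; simp
  · rw [e2 _ (by simp)]; simp

end

theorem poly_of {f : List Bool → List Bool} (h : PT Bool f) : PolyTime f :=
  PT.toTM2 id id f h fun _ => rfl

theorem exists_poly : ∃ P : Polynomial ℕ, ∀ (k l : ℕ) (w : List Bool),
    tot (pZ (input k l w [])) * (pZ (input k l w [])).cs ≤ P.eval (w.length + k + l) := by
  have : PT Bool fun z : List Bool => tot (pZ z) * (pZ z).cs := by fun_prop
  obtain ⟨c, d, h⟩ := this.pb
  refine ⟨Polynomial.C c * (2 * Polynomial.X + 4) ^ d, fun k l w => (h _).trans ?_⟩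
  simp only [Polynomial.eval_mul, Polynomial.eval_C, Polynomial.eval_pow, Polynomial.eval_add,
    Polynomial.eval_X, Polynomial.eval_ofNat, size_list, length_input]
  exact Nat.mul_le_mul_left _ (Nat.pow_le_pow_left (by omega) _)

theorem fpras : ∃ P : Polynomial ℕ, ∀ (m n : ℕ) (r : Fin m → ℕ) (c : Fin n → ℕ), 1 ≤ m →
    ∑ i, r i = ∑ j, c j → ∀ (k l : ℕ) (ε : ℚ), 1 ≤ k → 1 / (k : ℚ) ≤ ε →
    (1 - 1 / 2 ^ l : ℝ) * 2 ^ P.eval ((code r c).length + k + l) ≤
      {ρ : Fin (P.eval ((code r c).length + k + l)) → Bool | Approx ε (tables r c)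
        (numF (input k l (code r c) (List.ofFn ρ))) (denF (input k l (code r c) (List.ofFn ρ)))}.ncard := by
  classical
  obtain ⟨P, hP⟩ := exists_poly
  refine ⟨P, fun m n r c hm hb k l ε hk hε => ?_⟩
  have h2 := hP k l (code r c)
  obtain ⟨p1, p2, p3, p4, p5⟩ := parse r c k l
  have p6 : k + m + n ≤ (input k l (code r c) []).length := by
    simp only [length_input, code, List.length_append, length_un]; omega
  simp only [numF, denF, cut_input]
  generalize P.eval ((code r c).length + k + l) = s at *
  generalize input k l (code r c) [] = z at *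
  have h : HZ z := ⟨by omega, by omega, by subst p2 p3; simp only [p4, p5, hb]⟩
  obtain ⟨X, R, Γ, ζ, η, η0, θ, C, hF, hG⟩ := h.main
  have f := (C.fail (fun _ => []) le_rfl).trans hF
  rw [← Ex_Et _ _ _ _ s h2, p1] at f
  have f2 := mul_le_mul_of_nonneg_right f (show (0 : ℝ) ≤ 2 ^ s by positivity)
  rw [Ex_eq_sum] at f2
  rw [Set.ncard_eq_toFinset_card', Set.toFinset_ofPred, card_filter]
  push_cast
  have : (2 : ℝ) ^ s = ∑ ρ : Fin s → Bool, 1 := by simp
  rw [sub_mul, one_mul, sub_le_iff_le_add]
  refine le_trans ?_ (add_le_add_right f2 _)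
  rw [← sum_add_distrib, this]
  refine sum_le_sum fun ρ _ => ?_
  split_ifs with a1 a2 a2
  · simp
  · simp
  · refine absurd ?_ a1
    obtain ⟨g1, g2, g3⟩ := hG _ a2 k hk (by unfold yZ; omega)
    have g4 := cD_pos h.hm
    rw [Approx, binVal_bits, binVal_bits, hist, blk_trj,
      tables_eq p2 p3 r c hb (TZ z h.hm).o (sZ z) p4 (p2 ▸ p5)]
    have hε' : (1 : ℝ) / k ≤ ε := by simpa using (Rat.cast_le (K := ℝ)).2 hε
    rw [div_mul_eq_mul_div, div_div] at g2 g3
    change _ * ((TS _ fun u => sZ z (idx u)).card : ℝ) ≤ _ at g2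
    change _ ≤ _ * ((TS _ fun u => sZ z (idx u)).card : ℝ) at g3
    generalize (TS _ fun u => sZ z (idx u)).card = N at g2 g3 ⊢
    have hN : (0 : ℝ) ≤ N := Nat.cast_nonneg _
    refine ⟨Nat.mul_pos g1 g4, (Rat.cast_le (K := ℝ)).1 ?_, (Rat.cast_le (K := ℝ)).1 ?_⟩ <;> push_cast
    · exact (mul_le_mul_of_nonneg_right (by linarith) hN).trans g2
    · exact g3.trans (mul_le_mul_of_nonneg_right (by linarith) hN)
  · simp

end Vale.Agent.P328
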