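import Vale.Agent.P328.Num
import Vale.Agent.P328.Inst

/-! The numerical description agrees with the polarized instance. -/

namespace Vale.Agent.P328

open Finset Vale.Agent.P317

variable {m n K : ℕ}

def idx : Fin m ⊕ Fin n → ℕ := Sum.elim Fin.val fun j => m + j

theorem idx_inj : Function.Injective (idx (m := m) (n := n)) := by
  rintro (i | i) (j | j) h <;> simp only [idx, Sum.elim_inl, Sum.elim_inr] at h <;>
    simp only [Sum.inl.injEq, Sum.inr.injEq, Fin.ext_iff, reduceCtorEq] <;> omega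

def num (o : Option (Fin m)) : ℕ := o.elim m Fin.val

theorem prod_num {M : Type} [CommMonoid M] (f : ℕ → M) :
    ∏ o : Option (Fin m), f (num o) = ∏ i ∈ range (m + 1), f i := by
  rw [Fintype.prod_option, prod_range_succ, prod_range, mul_comm]; rfl

theorem sum_num (f : ℕ → ℕ) : ∑ o : Option (Fin m), f (num o) = sumR (m + 1) f := by
  rw [Fintype.sum_option, sumR, sum_range_succ, sum_range, add_comm]; rfl

theorem num_last (i : Fin (m + 1)) : num (finSuccEquivLast i) = i := by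
  induction i using Fin.lastCases <;> simp [num]

def eqv (m n K : ℕ) : Fin ((m + 1) * (n + 1) * K) ≃ Ce m n × Fin K :=
  finProdFinEquiv.symm.trans (Equiv.prodCongr
    (finProdFinEquiv.symm.trans (Equiv.prodCongr finSuccEquivLast finSuccEquivLast)) (Equiv.refl _))

theorem eqv_spec (g : Fin ((m + 1) * (n + 1) * K)) : num (eqv m n K g).1.1 = g / K / (n + 1) ∧
    num (eqv m n K g).1.2 = g / K % (n + 1) ∧ (eqv m n K g).2 = g.val % K := by
  simp [eqv, num_last, Fin.divNat, Fin.modNat]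

theorem eqv_symm (c : Ce m n) (a : Fin K) :
    ((eqv m n K).symm (c, a)).val = (num c.1 * (n + 1) + num c.2) * K + a := by
  obtain ⟨h1, h2, h3⟩ := eqv_spec ((eqv m n K).symm (c, a))
  rw [Equiv.apply_symm_apply] at h1 h2 h3
  simp only at h1 h2 h3
  rw [h1, h2, h3, Nat.div_add_mod', Nat.div_add_mod']

theorem eqv_spec' {N : ℕ} (h : N = (m + 1) * (n + 1) * K) (g : Fin N) :
    num (((finCongr h).trans (eqv m n K)) g).1.1 = g / K / (n + 1) ∧
    num (((finCongr h).trans (eqv m n K)) g).1.2 = g / K % (n + 1) ∧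
      (((finCongr h).trans (eqv m n K)) g).2 = g.val % K := by
  subst h; exact eqv_spec g

theorem eqv_symm' {N : ℕ} (h : N = (m + 1) * (n + 1) * K) (c : Ce m n) (a : Fin K) :
    (((finCongr h).trans (eqv m n K)).symm (c, a)).val = (num c.1 * (n + 1) + num c.2) * K + a := by
  subst h; exact eqv_symm c a

theorem kz_cond {G : Type} (σ rl : G → Bool) (A : ℕ) (g : G) (b : Bool) :
    kz σ rl A (g, b) = cond (xor b (σ g)) 0 (cond (rl g) (2 * A) A) := by
  simp only [kz]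
  cases b <;> cases σ g <;> simp

def enc (o : Option (Fin m ⊕ Fin n)) : ℕ := o.elim 0 fun u => idx u + 1

theorem enc_inj : Function.Injective (enc (m := m) (n := n)) := by
  rintro (_ | u) (_ | v) h <;> simp_all [enc, idx_inj.eq_iff]

theorem cast_dst (a b : ℕ) : ((dst a b : ℕ) : ℤ) ^ 2 = ((a : ℤ) - b) ^ 2 := by
  rw [sq_eq_sq_iff_abs_eq_abs, dst, Nat.abs_cast]
  rcases le_total a b with h | h
  · rw [abs_of_nonpos (by omega)]; omega
  · rw [abs_of_nonneg (by omega)]; omega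

theorem Tb.eZ_gen {G : Type} [Fintype G] {T : Tb m n} (e : G ≃ Ce m n × Fin T.K) {μ : ℕ} {ε : ℝ}
    (I : Finset (G × Bool)) : (T.P e μ ε).eZ I = μ * ∑ q, ((T.P e μ ε).nq I q : ℤ) ^ 2 +
      (∑ i, ((∑ j, T.kc (i, j) (.inl i) * (T.P e μ ε).nq I ((some i, some j), false) : ℕ) -
        (T.tc (.inl i) : ℤ)) ^ 2 +
      ∑ j, ((∑ i, T.kc (i, j) (.inr j) * (T.P e μ ε).nq I ((some i, some j), true) + T.tc (.inr j) : ℕ) -
        ((T.K * ∑ i, T.kc (i, j) (.inr j) : ℕ) : ℤ)) ^ 2) := by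
  simp only [PS.eZ, PS.tu, Fintype.sum_option, Fintype.sum_sum_type,
    show (T.P e μ ε).mar = Tb.mar from rfl, show (T.P e μ ε).kk = T.kk from rfl,
    show (T.P e μ ε).τ = T.τ from rfl, show (T.P e μ ε).μ = μ from rfl]
  rw [sum_eq_zero (s := univ) (f := fun q => if Tb.mar q = none then _ else _) fun q _ => by
    split_ifs with h <;> simp [Tb.kk_none, *]]
  simp only [Tb.sum_row, Tb.sum_col, Fintype.sum_option, Tb.kk, Tb.τ, cond_true, cond_false]
  push_cast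
  simp only [zero_mul, zero_add, sub_zero, ne_eq, OfNat.ofNat_ne_zero, not_false_eq_true, zero_pow]
  congr 2
  exact sum_congr rfl fun j _ => by ring

variable (z : List Bool) (hm : 0 < mZ z)

def TZ : Tb (mZ z) (nZ z) :=
  ⟨⟨oZ z, by rw [oZ]; exact (best_le z _).trans_lt (by omega)⟩, fun u => sZ z (idx u), fun u => 2 ^ dd z (idx u),
    fun u => sf z (idx u), fun e => 2 ^ de z e.1 e.2, KZ z, RZ z⟩

variable {p : Par} (hp : p.m = (mZ z + 1) * (nZ z + 1) * KZ z)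

def eZ : Fin p.m ≃ Ce (mZ z) (nZ z) × Fin (TZ z hm).K :=
  (finCongr hp).trans (eqv (mZ z) (nZ z) (KZ z))

noncomputable def PZ : PS (Fin p.m × Bool) (Ce (mZ z) (nZ z) × Bool) (Option (Fin (mZ z) ⊕ Fin (nZ z)))
    (Option (Fin (mZ z) ⊕ Fin (nZ z))) := (TZ z hm).P (eZ z hm hp) (μZ z) (1 / LZ z)

variable {z hm hp}

theorem eZ_spec (g : Fin p.m) : num (eZ z hm hp g).1.1 = ci z g ∧ num (eZ z hm hp g).1.2 = cj z g ∧
    (eZ z hm hp g).2 = g.val % KZ z := by
  unfold eZ ci cj; exact eqv_spec' hp g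

theorem idx_o {u : Fin (mZ z) ⊕ Fin (nZ z)} : idx u = oZ z ↔ u = .inl (TZ z hm).o :=
  idx_inj.eq_iff (b := .inl (TZ z hm).o)

theorem ex_eq (u : Fin (mZ z) ⊕ Fin (nZ z)) : (TZ z hm).ex u = exa z (idx u) := by
  rw [Tb.ex, exa]
  congr 1
  rw [Bool.eq_iff_iff]
  simp [← Bool.not_eq_true, idx_o (hm := hm)]

theorem rl_eq (g : Fin p.m) : (TZ z hm).rl (eZ z hm hp) g = rlZ z g := by
  obtain ⟨h1, h2, -⟩ := eZ_spec (hm := hm) (hp := hp) g
  rw [rlZ, ← h1, ← h2, Tb.rl]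
  rcases (eZ z hm hp g).1 with ⟨_ | i, _ | j⟩ <;> simp [num, ← Bool.not_eq_true]

theorem fs_eq (g : Fin p.m) : (TZ z hm).fs (eZ z hm hp) g = fsZ z g := by
  rw [Tb.fs, fsZ, rl_eq, ← (eZ_spec (hm := hm) (hp := hp) g).2.2]
  congr 1
  rw [Bool.eq_iff_iff, decide_eq_true_eq, Nat.ble_eq]

theorem bl_eq (g : Fin p.m) (b : Bool) : enc ((PZ z hm hp).B (g, b)) = blZ z g b := by
  obtain ⟨h1, h2, -⟩ := eZ_spec (hm := hm) (hp := hp) g
  rw [blZ, ← h1, ← h2, PZ, Tb.B_eq]
  have a : ∀ k, Nat.ble (k + 1) k = false := fun k => by simp [← Bool.not_eq_true]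
  have c : ∀ k (i : Fin k), Nat.ble (i + 1) k = true := fun k i => by simp
  rcases (eZ z hm hp g).1 with ⟨_ | i, _ | j⟩ <;> cases b <;>
    simp only [num, Tb.mar, Option.elim_none, Option.elim_some, a, c, cond_true, cond_false, Option.map,
      Option.filter, ex_eq, Bool.false_and, Bool.true_and, idx, Sum.elim_inl, Sum.elim_inr] <;>
    first | rfl | (split_ifs with h <;> simp [h, enc, idx])

theorem nq_link (l : List Bool) (q : Ce (mZ z) (nZ z) × Bool) :
    (PZ z hm hp).nq (toSt p l) q = nqZ z l (num q.1.1) (num q.1.2) (b2n q.2) := by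
  rw [PZ, Tb.nq_eq, nqZ, sumR_fin, card_filter]
  refine sum_congr rfl fun a _ => (cond_ite ?_ _ _).symm
  rw [mem_toSt, ← eqv_symm' hp q.1 a, eZ]
  exact Iff.rfl

theorem nb_link (l : List Bool) (c : Option (Fin (mZ z) ⊕ Fin (nZ z))) :
    (PZ z hm hp).nb (toSt p l) c = nbZ z l (enc c) := by
  rw [PS.nb, toSt, filter_filter, card_filter, Fintype.sum_prod_type, nbZ, NZ, ← hp, sumR_fin]
  refine sum_congr rfl fun g _ => ?_
  rw [Fintype.sum_bool, ← bl_eq (hm := hm) (hp := hp), ← bl_eq (hm := hm) (hp := hp)]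
  congr 1 <;> refine (cond_ite ?_ _ _).symm <;> simp [enc_inj.eq_iff, b2n]

variable {x : ℕ} {H : Fin (mZ z) ⊕ Fin (nZ z) → ℕ} (h1 : (TZ z hm).OK x H) (h2 : (TZ z hm).OK2 x)

section
include h2

theorem st_eq (u : Fin (mZ z) ⊕ Fin (nZ z)) : (TZ z hm).st u = stZ z (idx u) := by
  rw [Tb.st, stZ, ← ex_eq (hm := hm)]
  split_ifs with h
  · rw [h, cond_true]
    exact (min_eq_left (le_trans (Nat.le_add_right _ _) (h2.exs u h))).symm
  · simp [h]

theorem sg_eq (g : Fin p.m) : (TZ z hm).σ (eZ z hm hp) g = sgZ z g := by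
  obtain ⟨a1, a2, a3⟩ := eZ_spec (hm := hm) (hp := hp) g
  rw [sgZ, ← a1, ← a2, ← a3, Tb.σ, Bool.eq_iff_iff, decide_eq_true_eq, Nat.ble_eq]
  have a : ∀ k, Nat.ble (k + 1) k = false := fun k => by simp [← Bool.not_eq_true]
  have c : ∀ k (i : Fin k), Nat.ble (i + 1) k = true := fun k i => by simp
  rcases (eZ z hm hp g).1 with ⟨_ | i, _ | j⟩ <;>
    simp only [num, Option.elim, a, c, cond_true, cond_false, chZ, Tb.ch, st_eq h2, idx, Sum.elim_inl,
      Sum.elim_inr]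

theorem kz_eq (g : Fin p.m) (b : Bool) :
    kz ((TZ z hm).σ (eZ z hm hp)) ((TZ z hm).rl (eZ z hm hp)) (AZ z) (g, b) = kz0 z g b := by
  rw [kz0, ← sg_eq (hp := hp) h2, ← rl_eq (hm := hm) (hp := hp)]
  exact kz_cond _ _ _ _ _

theorem kI_eq : kI FZ z p = kz ((TZ z hm).σ (eZ z hm hp)) ((TZ z hm).rl (eZ z hm hp)) (AZ z) := by
  funext ⟨g, b⟩
  have e1 : (2 * g.val + b2n b) / 2 = g.val := by cases b <;> simp [b2n]; omega
  have e2 : Nat.beq ((2 * g.val + b2n b) % 2) 1 = b := by cases b <;> simp [b2n, Nat.beq]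
  simp only [kI, FZ, k0Z, e1, e2, kz_eq h2]

theorem S0_eq : S0 FZ z p = sS ((TZ z hm).σ (eZ z hm hp)) := by
  ext v; rw [S0, mem_filter]; simp [FZ, sg_eq h2]

theorem a0_eq (i j : Fin p.m) : FZ.a0 z i j =
    kz ((TZ z hm).σ (eZ z hm hp)) ((TZ z hm).rl (eZ z hm hp)) (AZ z) (j, (TZ z hm).σ (eZ z hm hp) j) + AZ z *
      cost ((PZ z hm hp).B (i, !(TZ z hm).σ (eZ z hm hp) i)) ((PZ z hm hp).B (j, (TZ z hm).σ (eZ z hm hp) j)) + ρZ z := by
  have : ∀ a b : Option (Fin (mZ z) ⊕ Fin (nZ z)), costN (enc a) (enc b) = cost a b := fun a b => by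
    have e : ∀ a : Option (Fin (mZ z) ⊕ Fin (nZ z)), Nat.beq (enc a) 0 = true ↔ a = none := fun a => by
      rw [Nat.beq_eq]; exact enc_inj.eq_iff (b := none)
    rw [costN, cost, cond_ite (e a), cond_ite (e b), cond_ite (P := a = b) (by simp [enc_inj.eq_iff])]
  simp only [FZ, a0Z, kz_eq h2, sg_eq h2, ← this, bl_eq]

theorem va_link (l : List Bool) : vaZ z l = true ↔ (PZ z hm hp).valid (toSt p l) := by
  have a : ∀ c, (PZ z hm hp).deg c = dgZ z (enc c) := fun c => by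
    change (PZ z hm hp).nb (sS _) c = _
    rw [PS.nb, sS, filter_filter, card_filter, Fintype.sum_prod_type, dgZ, NZ, ← hp, sumR_fin]
    refine sum_congr rfl fun g _ => ?_
    rw [Fintype.sum_bool, ← sg_eq (hp := hp) h2, ← bl_eq (hm := hm) (hp := hp), b2n,
      cond_ite (P := (PZ z hm hp).B (g, (TZ z hm).σ (eZ z hm hp) g) = c) (by simp [enc_inj.eq_iff])]
    cases (TZ z hm).σ (eZ z hm hp) g <;> simp
  rw [vaZ, NZ, ← hp, allR_iff, PS.valid]
  simp only [Bool.and_eq_true, Nat.beq_eq]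
  constructor
  · intro h c
    by_cases hc : ∃ v, (PZ z hm hp).B v = c
    · obtain ⟨⟨g, b⟩, rfl⟩ := hc
      rw [nb_link, a, bl_eq]
      cases b
      exacts [(h g g.2).2, (h g g.2).1]
    · change _ = (PZ z hm hp).nb (sS _) c
      rw [PS.nb, PS.nb, filter_eq_empty_iff.2 fun v _ h => hc ⟨v, h⟩,
        filter_eq_empty_iff.2 fun v _ h => hc ⟨v, h⟩]
  · intro h g hg
    have := fun b => h ((PZ z hm hp).B (⟨g, hg⟩, b))
    simp only [nb_link, a, bl_eq] at this
    exact ⟨this true, this false⟩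

include h1

theorem kc_eq (e : Fin (mZ z) × Fin (nZ z)) {u : Fin (mZ z) ⊕ Fin (nZ z)} (hu : inc e u) :
    (TZ z hm).kc e u = kcZ z e.1 e.2 (idx u) := by
  have := h1.kc_le hu
  rw [kcZ, cond_ite (b := sf z (idx u)) (P := (TZ z hm).sf u = true) Iff.rfl]
  unfold Tb.kc at this ⊢
  split_ifs at this ⊢
  · exact (min_eq_left this).symm
  · rfl

omit h1 in
theorem tc_eq (u : Fin (mZ z) ⊕ Fin (nZ z)) : (TZ z hm).tc u = tcZ z (idx u) := by
  rw [tcZ, cond_ite (b := sf z (idx u)) (P := (TZ z hm).sf u = true) Iff.rfl, Tb.tc]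
  split_ifs with h
  · refine (min_eq_left (Nat.div_le_of_le_mul ?_)).symm
    have := Nat.mul_le_mul_left (KZ z) (h2.sfs u h)
    exact this.trans (le_of_eq (by simp only [TZ]; ring))
  · rfl

theorem ex_link (l : List Bool) : (PZ z hm hp).eZ (toSt p l) = exZ z l := by
  have := Tb.eZ_gen (eZ z hm hp) (μ := μZ z) (ε := 1 / LZ z) (toSt p l)
  rw [← PZ] at this
  simp only [nq_link, fun i j => kc_eq h1 h2 (i, j) (Or.inl rfl), fun i j => kc_eq h1 h2 (i, j) (Or.inr rfl),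
    tc_eq h2, ← cast_dst] at this
  rw [this, exZ, ← sum_num]
  simp only [← sum_num, sumR_fin (mZ z), sumR_fin (nZ z), Fintype.sum_prod_type, Fintype.sum_bool]
  push_cast
  rfl

theorem rep_link (hP : (PZ z hm hp).OK (KZ z)) (hL : 2 ≤ LZ z) (hE : ∀ I, (PZ z hm hp).eZ I ≤ EZ z) :
    Rep FZ z p (hP.base (LZ z ^ EZ z)) := by
  classical
  intro l
  simp only [PS.OK.base, FZ, wBZ, PS.w, cond_ite (va_link (hp := hp) h2 l)]
  split_ifs
  · have := hE (toSt p l)
    rw [ex_link h1 h2] at this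
    rw [Nat.cast_pow, PS.w1_int hL rfl (ex_link h1 h2 l) (by exact_mod_cast this)]
    simp only [prodR, ← prod_num, Fintype.prod_prod_type, Fintype.prod_bool, nq_link]
    rfl
  · simp

end

end Vale.Agent.P328
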