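import Vale.Agent.P328.Sem

/-! The annealing process keeps good weights. -/

namespace Vale.Agent.P328

open Finset Vale.Agent.P317

variable (F : Fam) (z : List Bool) (p : Par) (X : Base (Fin p.m))

def S0 : Finset (Fin p.m × Bool) := univ.filter fun v => v.2 = F.sg z v.1

def kI : Fin p.m × Bool → ℕ := fun v => F.k0 z (2 * v.1 + b2n v.2)

structure Cond (R Γ ζ η η0 θ : ℝ) : Prop where
  rep : Rep F z p X
  T0 : 0 < p.T
  Q0 : 0 < p.Q
  A0 : 0 < p.A
  hκ : 2 * p.m ≤ 2 ^ p.κ
  hcs : ∃ wb kb ab : ℕ, (∀ I, X.w I ≤ 2 ^ wb) ∧ (∀ v, F.k0 z v ≤ kb) ∧ (∀ i j, F.a0 z i j ≤ ab) ∧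
    2 * p.κ + 2 + (wb + (2 * p.m * (kb + 2 * p.A) + (p.L + p.m * (p.m * (ab + 2 * p.L)))) + 1) ≤ p.cs
  hT : 2 * (60 * Γ * R * (p.m + 1) ^ 3) ^ 2 ≤ η ^ 2 * cP p * p.T
  hΓ : 8 + (p.m : ℝ) ^ 2 * R ≤ Γ
  g0 : GoodK X (kI F z p) (fun i j => 2 ^ F.a0 z i j) R
  s0 : Zk X (kI F z p) ≤ (1 + η0) * wt X (kI F z p) (S0 F z p)
  e0 : 0 ≤ η
  e2 : η0 + (p.L + 1) * η ≤ ζ / 2
  z0 : 0 ≤ ζ
  z1 : ζ * Γ ≤ θ
  t1 : θ ≤ 1 / 4

def st (g : ℕ) (H : ℕ → List Bool) (c : List Bool) : List Bool :=
  move F z p H (stg p g) (cur F z p H g) c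

noncomputable def Pt (H : ℕ → List Bool) (t : ℕ) : Module.End ℝ (Finset (Fin p.m × Bool) → ℝ) :=
  Pop (cP p) (accp F z p X H t)

noncomputable def Op (g : ℕ) (H : ℕ → List Bool) : Module.End ℝ (Finset (Fin p.m × Bool) → ℝ) :=
  Pt F z p X H (stg p g)

theorem toSt_init : toSt p (init F z p) = S0 F z p := by
  ext ⟨g, b⟩
  have := g.2
  rw [mem_toSt, init, bit_mapR _ (by cases b <;> simp only [b2n, cond_true, cond_false] <;> omega)]
  have e1 : (2 * g.val + b2n b) / 2 = g.val := by cases b <;> simp [b2n]; omega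
  have e2 : Nat.beq ((2 * g.val + b2n b) % 2) 1 = b := by cases b <;> simp [b2n, Nat.beq]
  simp only [e1, e2, S0, mem_filter, mem_univ, true_and]
  cases b <;> cases F.sg z g <;> simp

theorem S0_T : S0 F z p ∈ trans univ := by simp [mem_trans, S0]

theorem toSt_cur (H : ℕ → List Bool) (g : ℕ) :
    toSt p (cur F z p H g) = if g % p.B = 0 then S0 F z p else toSt p (H (g - 1)) := by
  rw [cur, cond_ite (P := g % p.B = 0) (by simp), apply_ite (toSt p), toSt_init]

variable {F z p X}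

theorem ex_le {kb ab : ℕ} (hk : ∀ v, F.k0 z v ≤ kb) (ha : ∀ i j, F.a0 z i j ≤ ab)
    (H : ℕ → List Bool) {t : ℕ} (ht : t ≤ p.L) (I : Finset (Fin p.m × Bool)) :
    ex F z p H t I ≤ 2 * p.m * (kb + 2 * p.A) + (p.L + p.m * (p.m * (ab + 2 * p.L))) := by
  refine add_le_add ?_ (add_le_add (by split_ifs <;> omega) ?_)
  · refine (sum_le_card_nsmul _ _ (kb + 2 * p.A) fun g _ => ?_).trans ?_
    · simp only [kf, fld]
      refine add_le_add (hk _) ?_
      cases xor g.2 (F.fs z g.1) <;> simp only [cond_true, cond_false] <;> omega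
    · rw [smul_eq_mul]
      exact Nat.mul_le_mul_right _ (by simpa [mul_comm] using card_le_univ I)
  · refine (sum_le_card_nsmul _ _ _ fun i _ => sum_le_card_nsmul _ _ (ab + 2 * p.L) fun j _ => ?_).trans
      (by simp)
    split_ifs
    · have h1 : sumR t (fun s => b2n (!Nat.ble (cntT p H s) (cntN p H s i j))) ≤ t := by
        simpa [sumR] using sum_le_card_nsmul (range t) _ 1 fun s _ => b2n_le _
      have h2 := ha i j
      unfold aexp; omega
    · omega

theorem cntA_dep (hB : 0 < p.B) {H H' : ℕ → List Bool} {t s : ℕ} (h : Agree (t * p.Q * p.B) H H')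
    (hs : s < t) : cntA F z p H s = cntA F z p H' s := by
  unfold cntA sumR
  exact sum_congr rfl fun q hq => by simp only [smp_dep hB h hs (mem_range.1 hq)]

theorem hf_dep (hB : 0 < p.B) {H H' : ℕ → List Bool} {t : ℕ} (h : Agree (t * p.Q * p.B) H H') :
    hf F z p H t = hf F z p H' t := by
  funext i j
  unfold hf aexp
  congr 4
  refine sum_congr rfl fun s hs => ?_
  obtain ⟨h1, -, h2⟩ := cnt_dep hB h (mem_range.1 hs)
  simp only [h1, h2]

variable {R Γ ζ η η0 θ : ℝ}

theorem Cond.B0 (C : Cond F z p X R Γ ζ η η0 θ) : 0 < p.B := Nat.mul_pos (by omega) C.T0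

theorem Cond.stg_le (C : Cond F z p X R Γ ζ η η0 θ) (g : ℕ) : stg p g ≤ p.L := by
  have : g % p.B / p.T < p.L + 1 := (Nat.div_lt_iff_lt_mul C.T0).2 (Nat.mod_lt _ C.B0)
  unfold stg; omega

theorem Cond.smp (C : Cond F z p X R Γ ζ η η0 θ) :
    Smp p.cs p.B (st F z p) (toSt p) (S0 F z p) (Op F z p X) := by
  refine ⟨C.B0, fun g H f => ?_, fun g H H' h => ?_, fun g H => ?_, fun g H f hf => ?_⟩
  · rw [← toSt_cur]
    obtain ⟨wb, kb, ab, h1, h2, h3, h4⟩ := C.hcs
    refine Ex_move C.rep C.hκ H _ _ (fun I => ?_) h4 f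
    obtain ⟨l, rfl⟩ := toSt_surj p I
    rw [WN_toSt C.rep, Wi]
    have h5 : F.wB z l ≤ 2 ^ wb := by exact_mod_cast (C.rep l).ge.trans (h1 _)
    have h6 := ex_le h2 h3 H (C.stg_le g) (toSt p l)
    rw [← expo_eq] at h6
    cases typ p l
    · simp
    · refine lt_of_le_of_lt (Nat.mul_le_mul h5 (Nat.pow_le_pow_right (by norm_num) h6)) ?_
      rw [← pow_add]
      exact Nat.pow_lt_pow_right (by norm_num) (Nat.lt_succ_self _)
  · have h1 : stg p g * p.Q ≤ g / p.B :=
      (Nat.mul_le_mul_right _ (min_le_right _ _)).trans (Nat.div_mul_le_self _ _)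
    have := hf_dep (F := F) (z := z) C.B0 (h.mono (Nat.mul_le_mul_right _ h1))
    have e : accp F z p X H (stg p g) = accp F z p X H' (stg p g) := by
      funext I J; simp only [accp, WN, Wt, this]
    simp only [Op, Pt, e]
  · simpa [Op, Pt] using P317.Metro.one (c := cP p) (acc := accp F z p X H (stg p g)) 1
  · simpa [Op, Pt] using (metro C.rep C.hκ H (stg p g)).unit hf 1

variable (F z p) in
def evA (t : ℕ) (I : Finset (Fin p.m × Bool)) : Prop :=
  ∃ g : Fin p.m, g.val = t / (2 * p.A) ∧ (g, F.fs z g) ∈ I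

variable (F z p) in
open Classical in
noncomputable def chi (t : ℕ) : Idx p → Finset (Fin p.m × Bool) → ℝ
  | none, I => if I ∈ trans univ then 1 else 0
  | some none, I => if I ∈ trans univ ∧ evA F z p t I then 1 else 0
  | some (some x), I => if I ∈ Nset x.1 x.2 then 1 else 0

variable (F z p) in
def cnt (H : ℕ → List Bool) (t : ℕ) : Idx p → ℕ
  | none => cntT p H t
  | some none => cntA F z p H t
  | some (some x) => cntN p H t x.1 x.2

theorem chi01 (t : ℕ) (x : Idx p) (I : Finset (Fin p.m × Bool)) :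
    chi F z p t x I = 0 ∨ chi F z p t x I = 1 := by
  rcases x with _ | _ | x <;> simp only [chi] <;> split_ifs <;> simp

theorem chi_unit (t : ℕ) (x : Idx p) (I : Finset (Fin p.m × Bool)) :
    0 ≤ chi F z p t x I ∧ chi F z p t x I ≤ 1 := by
  rcases chi01 (F := F) (z := z) t x I with h | h <;> simp [h]

theorem isA_iff (hA : 0 < p.A) {t : ℕ} (ht : t < p.L) {l : List Bool} :
    isA F z p t l = true ↔ toSt p l ∈ trans univ ∧ evA F z p t (toSt p l) := by
  rw [isA, Bool.and_eq_true, isT_iff, evA]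
  refine and_congr_right fun _ => ⟨fun h => ⟨eF hA ht, rfl, mem_toSt.2 h⟩, ?_⟩
  rintro ⟨g, h1, h2⟩
  rw [← h1]; exact mem_toSt.1 h2

theorem cnt_eq (hA : 0 < p.A) (H : ℕ → List Bool) {t : ℕ} (ht : t < p.L) (x : Idx p) :
    (cnt F z p H t x : ℝ) = ∑ q ∈ range p.Q, chi F z p t x (toSt p (smp p H t q)) := by
  classical
  rcases x with _ | _ | x
  · simp only [cnt, cntT, sumR, chi, Nat.cast_sum, cast_b2n isT_iff]
  · simp only [cnt, cntA, sumR, chi, Nat.cast_sum, cast_b2n (isA_iff hA ht)]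
  · simp only [cnt, cntN, sumR, chi, Nat.cast_sum, cast_b2n isN_iff]

variable (F z p X) in
noncomputable def pr (H : ℕ → List Bool) (t : ℕ) (x : Idx p) : ℝ :=
  Ep (Wt F z p X H t) (chi F z p t x)

variable (F z p X) in
def Dev (ζ : ℝ) (H : ℕ → List Bool) (t : ℕ) : Prop :=
  ∀ x, |(cnt F z p H t x : ℝ) - p.Q * pr F z p X H t x| ≤ p.Q * ζ

variable (F z p X) in
def Gd (ζ : ℝ) (H : ℕ → List Bool) (t : ℕ) : Prop := ∀ s < t, Dev F z p X ζ H s

theorem pr_T (H : ℕ → List Bool) (t : ℕ) :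
    pr F z p X H t none = Zk X (kf F z p t) / ∑ I, Wt F z p X H t I := by
  rw [pr, Ep, Wt, sum_Wk, sum_eq_zero (s := univ), add_zero]
  · congr 1
    exact sum_congr rfl fun I hI => by simp [chi, hI]
  · refine fun i _ => sum_eq_zero fun j _ => ?_
    rw [sum_eq_zero, mul_zero]
    intro I hI; simp [chi, not_T_of_N hI]

open Classical in
theorem pr_A (H : ℕ → List Bool) (t : ℕ) : pr F z p X H t (some none) =
    (∑ I ∈ trans univ, wt X (kf F z p t) I * if evA F z p t I then 1 else 0) /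
      ∑ I, Wt F z p X H t I := by
  rw [pr, Ep, Wt, sum_Wk, sum_eq_zero (s := univ), add_zero]
  · congr 1
    exact sum_congr rfl fun I hI => by simp [chi, hI]
  · refine fun i _ => sum_eq_zero fun j _ => ?_
    rw [sum_eq_zero, mul_zero]
    intro I hI; simp [chi, not_T_of_N hI]

theorem pr_N (H : ℕ → List Bool) (t : ℕ) (i j : Fin p.m) : pr F z p X H t (some (some (i, j))) =
    hf F z p H t i j * Nk X (kf F z p t) i j / ∑ I, Wt F z p X H t I := by
  rw [pr, Ep]
  congr 1
  simp only [chi, mul_ite, mul_one, mul_zero, ← sum_filter, filter_mem_eq_inter, univ_inter, Nk, mul_sum]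
  exact sum_congr rfl fun I hI => by rw [Wt, Wk, tau_N _ hI, mul_comm]

theorem kf_zero : kf F z p 0 = kI F z p := by
  funext v
  simp only [kf, fld, kI]
  cases xor v.2 (F.fs z v.1) <;> simp

theorem kf_L (hr : p.r = 0) (v : Fin p.m × Bool) :
    kf F z p p.L v = kI F z p v + if v.2 = F.fs z v.1 then 2 * p.A else 0 := by
  have h0 : v.1.val < p.n := by have := v.1.2; unfold Par.m at this; omega
  have : 2 * p.A * (v.1.val + 1) ≤ 2 * p.A * p.n := Nat.mul_le_mul_left _ h0
  rw [mul_add, mul_one] at this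
  simp only [kf, fld, kI]
  rw [min_eq_left (by unfold Par.L; omega)]
  cases v.2 <;> cases F.fs z v.1 <;> simp

theorem hf_zero (H : ℕ → List Bool) : hf F z p H 0 = fun i j : Fin p.m => 2 ^ F.a0 z i j := by
  funext i j
  simp [hf, aexp, sumR, pow_add]

theorem kf_succ (hA : 0 < p.A) {t : ℕ} (ht : t < p.L) :
    kf F z p (t + 1) = bump (kf F z p t) (eF hA ht, F.fs z (eF hA ht)) := by
  funext ⟨g, b⟩
  have h2 : g = eF hA ht ↔ 2 * p.A * g.val ≤ t ∧ t < 2 * p.A * g.val + 2 * p.A := by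
    rw [Fin.ext_iff, eF, eq_comm, Nat.div_eq_iff (by omega), mul_comm]; omega
  simp only [kf, fld, bump, Prod.mk.injEq]
  by_cases h3 : b = F.fs z g
  · rw [show xor b (F.fs z g) = false by simp [h3]]
    by_cases h4 : g = eF hA ht
    · rw [if_pos ⟨h4, h4 ▸ h3⟩]; rw [h2] at h4; simp only [cond_false]; omega
    · rw [if_neg fun h => h4 h.1]; rw [h2] at h4; simp only [cond_false]; omega
  · rw [show xor b (F.fs z g) = true by simpa using h3, if_neg (by rintro ⟨h5, h6⟩; exact h3 (h5 ▸ h6))]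
    rfl

theorem hf_succ (H : ℕ → List Bool) {t : ℕ} (ht : t < p.L) (i j : Fin p.m) :
    hf F z p H (t + 1) i j =
      if cntT p H t ≤ cntN p H t i j then hf F z p H t i j / 2 else 2 * hf F z p H t i j := by
  have e : aexp F z p H (t + 1) i j + 1 = aexp F z p H t i j +
      2 * b2n (!Nat.ble (cntT p H t) (cntN p H t i j)) := by
    simp only [aexp, sumR, sum_range_succ]; omega
  simp only [hf]
  split_ifs with h
  · rw [Nat.ble_eq_true_of_le h] at e
    simp only [b2n, Bool.not_true, cond_false, mul_zero, add_zero] at e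
    rw [← e, pow_succ]; ring
  · rw [Bool.eq_false_iff.2 fun h' => h (Nat.le_of_ble_eq_true h')] at e
    simp only [b2n, Bool.not_false, cond_true] at e
    rw [show aexp F z p H (t + 1) i j = aexp F z p H t i j + 1 by omega, pow_succ]; ring

theorem Cond.G8 (C : Cond F z p X R Γ ζ η η0 θ) : 8 ≤ Γ := by
  nlinarith [C.hΓ, C.g0.hR, sq_nonneg (p.m : ℝ)]

theorem Cond.prT {H : ℕ → List Bool} {t : ℕ} (C : Cond F z p X R Γ ζ η η0 θ)
    (G : GoodK X (kf F z p t) (hf F z p H t) R) : ζ ≤ θ * pr F z p X H t none := by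
  rw [pr_T]
  have h1 := G.tot
  have hZ := G.hZ
  rw [Fintype.card_fin] at h1
  have hp : 0 < ∑ I, Wt F z p X H t I := hZ.trans_le h1.1
  rw [← mul_div_assoc, le_div_iff₀ hp]
  refine (mul_le_mul_of_nonneg_left h1.2 C.z0).trans ?_
  have h2 := C.z1
  have h3 := mul_le_mul_of_nonneg_left C.hΓ C.z0
  nlinarith [C.z0]

theorem Cond.good (C : Cond F z p X R Γ ζ η η0 θ) {H : ℕ → List Bool} {t : ℕ} (ht : t ≤ p.L)
    (h : Gd F z p X ζ H t) : GoodK X (kf F z p t) (hf F z p H t) R := by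
  induction t with
  | zero => rw [kf_zero, hf_zero]; exact C.g0
  | succ t ih =>
    have G := ih (by omega) fun s hs => h s (by omega)
    rw [kf_succ C.A0 ht]
    refine G.step _ fun i j => ?_
    have d1 := abs_le.1 (h t (by omega) none)
    have d2 := abs_le.1 (h t (by omega) (some (some (i, j))))
    have h1 := C.prT G
    have hp : 0 < ∑ I, Wt F z p X H t I := G.hZ.trans_le G.tot.1
    have hQ : (0 : ℝ) < p.Q := by exact_mod_cast C.Q0
    have h2 := C.t1
    have h3 : 0 ≤ pr F z p X H t none := by rw [pr_T]; exact div_nonneg G.hZ.le hp.le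
    have h4 : 4 * ζ ≤ pr F z p X H t none := by nlinarith
    simp only [cnt] at d1 d2
    rw [hf_succ H ht]
    split_ifs with hc
    · refine Or.inl ⟨rfl, ?_⟩
      have hc' : (cntT p H t : ℝ) ≤ cntN p H t i j := by exact_mod_cast hc
      have : pr F z p X H t none ≤ 2 * pr F z p X H t (some (some (i, j))) :=
        le_of_mul_le_mul_left (by nlinarith) hQ
      rwa [pr_T, pr_N, ← mul_div_assoc, div_le_div_iff_of_pos_right hp] at this
    · refine Or.inr ⟨rfl, ?_⟩
      have hc' : (cntN p H t i j : ℝ) ≤ cntT p H t := by exact_mod_cast (not_le.1 hc).le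
      have : pr F z p X H t (some (some (i, j))) ≤ 2 * pr F z p X H t none :=
        le_of_mul_le_mul_left (by nlinarith) hQ
      rwa [pr_T, pr_N, ← mul_div_assoc, div_le_div_iff_of_pos_right hp] at this

theorem Cond.Fw_block (C : Cond F z p X R Γ ζ η η0 θ) (H : ℕ → List Bool) {t q s : ℕ} (hq : q < p.Q)
    (hs : s ≤ p.L) (u : ℕ) (hu : u ≤ p.T) :
    Fw (Op F z p X) ((t * p.Q + q) * p.B) H (s * p.T + u) =
      Fw (Op F z p X) ((t * p.Q + q) * p.B) H (s * p.T) * Pt F z p X H (min s t) ^ u := by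
  induction u with
  | zero => simp
  | succ u ih =>
    rw [← add_assoc, Fw, ih (by omega), pow_succ, mul_assoc]
    congr 2
    have h1 : s * p.T + u < p.B := by
      have : (s + 1) * p.T ≤ (p.L + 1) * p.T := Nat.mul_le_mul_right _ (by omega)
      rw [Nat.succ_mul] at this
      unfold Par.B; omega
    have e1 : ((t * p.Q + q) * p.B + (s * p.T + u)) / p.B = t * p.Q + q := by
      rw [mul_comm, Nat.mul_add_div C.B0, Nat.div_eq_of_lt h1, add_zero]
    have e2 : ((t * p.Q + q) * p.B + (s * p.T + u)) % p.B = s * p.T + u := by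
      rw [mul_comm, Nat.mul_add_mod, Nat.mod_eq_of_lt h1]
    have e3 : (s * p.T + u) / p.T = s := by
      rw [mul_comm, Nat.mul_add_div C.T0, Nat.div_eq_of_lt (by omega), add_zero]
    have e4 : (t * p.Q + q) / p.Q = t := by
      rw [mul_comm, Nat.mul_add_div C.Q0, Nat.div_eq_of_lt hq, add_zero]
    rw [Op, stg, e1, e2, e3, e4]

theorem Cond.bias (C : Cond F z p X R Γ ζ η η0 θ) {H : ℕ → List Bool} {t q : ℕ} (ht : t ≤ p.L)
    (hq : q < p.Q) (h : Gd F z p X ζ H t) {f : Finset (Fin p.m × Bool) → ℝ}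
    (hf : ∀ I, 0 ≤ f I ∧ f I ≤ 1) :
    |Fw (Op F z p X) ((t * p.Q + q) * p.B) H p.B f (S0 F z p) - Ep (Wt F z p X H t) f| ≤ ζ / 2 := by
  have hG : ∀ s ≤ t, GoodK X (kf F z p s) (P328.hf F z p H s) R := fun s hs =>
    C.good (by omega) fun s' hs' => h s' (by omega)
  have hT : 2 * (60 * Γ * R * ((Fintype.card (Fin p.m) : ℝ) + 1) ^ 3) ^ 2 ≤ η ^ 2 * cP p * p.T := by
    simpa using C.hT
  have hΓ := C.G8
  have main : ∀ s ≤ p.L, ∀ f : Finset (Fin p.m × Bool) → ℝ, (∀ I, 0 ≤ f I ∧ f I ≤ 1) →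
      |Fw (Op F z p X) ((t * p.Q + q) * p.B) H ((s + 1) * p.T) f (S0 F z p) -
        Ep (Wt F z p X H (min s t)) f| ≤ η0 + (s + 1) * η := by
    intro s hs
    induction s with
    | zero =>
      intro f hf
      have := C.Fw_block H (t := t) hq hs p.T le_rfl
      rw [Nat.succ_mul, this]
      simp only [zero_mul, Fw, one_mul, Nat.zero_min, Nat.cast_zero, zero_add]
      refine (hG 0 (by omega)).init_warm (metro C.rep C.hκ H 0) (by
        rw [Fintype.card_fin]; linarith [C.hΓ]) (S0_T F z p) ?_ C.e0 C.T0 hT hf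
      rw [kf_zero]; exact C.s0
    | succ s ih =>
      intro f hf
      have := C.Fw_block H (t := t) hq hs p.T le_rfl
      rw [Nat.succ_mul, this, Module.End.mul_apply]
      have h1 := ih (by omega) _ ((metro C.rep C.hκ H (min (s + 1) t)).unit hf p.T)
      refine (abs_sub_le _ _ _).trans ((add_le_add h1 (d := η) ?_).trans (by push_cast; linarith))
      by_cases hst : s < t
      · rw [min_eq_left hst.le, min_eq_left hst]
        have G := hG (s + 1) hst
        have M := metro C.rep C.hκ H (s + 1)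
        simp only [Wt] at M ⊢
        rw [kf_succ C.A0 (show s < p.L by omega)] at G M ⊢
        refine (hG s hst.le).step_warm G (fun i j => ?_) M hΓ C.e0 C.T0 hT hf
        rw [hf_succ H (by omega)]
        split_ifs <;> simp
      · rw [min_eq_right (not_lt.1 hst), min_eq_right (by omega)]
        exact (hG t le_rfl).same_warm (metro C.rep C.hκ H t) hΓ C.e0 C.T0 hT hf
  have := main p.L le_rfl f hf
  rw [min_eq_right ht] at this
  exact this.trans C.e2

end Vale.Agent.P328
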