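import Vale.Agent.P328.Main1
import Vale.Agent.P317.Mtr

/-! Failure probability and accuracy. -/

namespace Vale.Agent.P328

open Finset Vale.Agent.P317

variable {F : Fam} {z : List Bool} {p : Par} {X : Base (Fin p.m)} {R Γ ζ η η0 θ : ℝ}

theorem pr_dep (hB : 0 < p.B) {H H' : ℕ → List Bool} {t : ℕ} (h : Agree (t * p.Q * p.B) H H') :
    pr F z p X H t = pr F z p X H' t := by
  funext x; simp only [pr, Wt, hf_dep (F := F) (z := z) hB h]

theorem Gd_dep (hB : 0 < p.B) {H H' : ℕ → List Bool} {t : ℕ} (h : Agree (t * p.Q * p.B) H H') :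
    Gd F z p X ζ H t ↔ Gd F z p X ζ H' t := by
  refine forall_congr' fun s => forall_congr' fun hs => ?_
  obtain ⟨h1, -, h3⟩ := cnt_dep hB h hs
  have h2 := cntA_dep (F := F) (z := z) hB h hs
  have h4 := pr_dep (F := F) (z := z) (X := X) hB (t := s)
    (h.mono (Nat.mul_le_mul_right _ (Nat.mul_le_mul_right _ hs.le)))
  have : cnt F z p H s = cnt F z p H' s := by
    funext x; rcases x with _ | _ | x <;> simp only [cnt, h1, h2, h3]
  simp only [Dev, this, h4]

theorem pr_unit (H : ℕ → List Bool) (t : ℕ) (x : Idx p) :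
    0 ≤ pr F z p X H t x ∧ pr F z p X H t x ≤ 1 := by
  have hW : ∀ I, 0 ≤ Wt F z p X H t I := fun I => Wk_nonneg (fun i j => by unfold hf; positivity) I
  have h0 : 0 ≤ ∑ I, Wt F z p X H t I := sum_nonneg fun I _ => hW I
  refine ⟨div_nonneg (sum_nonneg fun I _ => mul_nonneg (hW I) (chi_unit t x I).1) h0, ?_⟩
  exact div_le_one_of_le₀ (sum_le_sum fun I _ => mul_le_of_le_one_right (hW I) (chi_unit t x I).2) h0

open Classical in
theorem Cond.fail (C : Cond F z p X R Γ ζ η η0 θ) (H0 : ℕ → List Bool) {g : ℕ} (hg : tot p ≤ g) :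
    Et p.cs H0 (st F z p) g (fun H => if Gd F z p X ζ H p.L then 0 else 1) ≤
      p.L * ((p.m ^ 2 + 2) * 2) * Real.exp (-(p.Q * ζ ^ 2 / 16)) := by
  let E : ℕ → Idx p → ℝ → (ℕ → List Bool) → ℝ := fun t x s H =>
    if Gd F z p X ζ H t ∧ p.Q * ζ < s * (∑ q ∈ range p.Q,
      chi F z p t x (toSt p (H ((t * p.Q + q) * p.B + p.B - 1))) - p.Q * pr F z p X H t x) then 1 else 0
  have hF0 : ∀ t x s H, 0 ≤ E t x s H := fun t x s H => by
    simp only [E]; split_ifs <;> norm_num
  have hζ : ζ ≤ 1 := by nlinarith [C.z1, C.t1, C.z0, C.G8]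
  have h1 : ∀ t ∈ range p.L, ∀ x, ∀ s, s = 1 ∨ s = -1 →
      Et p.cs H0 (st F z p) g (E t x s) ≤ Real.exp (-(p.Q * ζ ^ 2 / 16)) := by
    intro t ht x s hs
    have ht' := mem_range.1 ht
    refine C.smp.chernoff H0 (t * p.Q) p.Q (fun H => Gd F z p X ζ H t)
      (fun H => pr F z p X H t x) (fun H H' h => ⟨Gd_dep C.B0 h, by rw [pr_dep C.B0 h]⟩)
      (fun H => pr_unit H t x) (chi F z p t x) (chi01 t x) C.z0 hζ hs
      (fun q hq H hG => C.bias (by omega) hq hG (chi_unit t x)) (le_trans ?_ hg)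
    rw [← Nat.succ_mul]
    exact Nat.mul_le_mul_right _ (Nat.mul_le_mul_right _ (by omega))
  refine (Et_mono _ _ _ _ (Ψ := fun H => ∑ t ∈ range p.L, ∑ x, (E t x 1 H + E t x (-1) H))
    fun H => ?_).trans ?_
  · split_ifs with h
    · exact sum_nonneg fun _ _ => sum_nonneg fun _ _ => add_nonneg (hF0 _ _ _ _) (hF0 _ _ _ _)
    have hex : ∃ t, t < p.L ∧ ¬ Dev F z p X ζ H t := by
      by_contra hc
      push Not at hc
      exact h hc
    obtain ⟨h2, h3⟩ := Nat.find_spec hex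
    have h4 : Gd F z p X ζ H (Nat.find hex) := fun s hs => by
      by_contra hc
      exact Nat.find_min hex hs ⟨by omega, hc⟩
    set t := Nat.find hex
    simp only [Dev, not_forall, not_le, cnt_eq C.A0 H h2, P317.smp] at h3
    obtain ⟨x, hx⟩ := h3
    refine le_trans ?_ (single_le_sum (f := fun t => ∑ x, (E t x 1 H + E t x (-1) H))
      (fun _ _ => sum_nonneg fun _ _ => add_nonneg (hF0 _ _ _ _) (hF0 _ _ _ _)) (mem_range.2 h2))
    refine le_trans ?_ (single_le_sum (f := fun x => E t x 1 H + E t x (-1) H)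
      (fun _ _ => add_nonneg (hF0 _ _ _ _) (hF0 _ _ _ _)) (mem_univ x))
    rcases lt_abs.1 hx with h5 | h5
    · have : E t x 1 H = 1 := if_pos ⟨h4, by rwa [one_mul]⟩
      linarith [hF0 t x (-1) H]
    · have : E t x (-1) H = 1 := if_pos ⟨h4, by rwa [neg_one_mul]⟩
      linarith [hF0 t x 1 H]
  · rw [Et, Ex_sum]
    refine (sum_le_card_nsmul _ _ (((p.m ^ 2 + 2) * 2) * Real.exp (-(p.Q * ζ ^ 2 / 16))) fun t ht => ?_).trans
      (le_of_eq (by simp; ring))
    rw [Ex_sum]
    refine (sum_le_card_nsmul _ _ (2 * Real.exp (-(p.Q * ζ ^ 2 / 16))) fun x _ => ?_).trans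
      (le_of_eq (by simp; ring))
    rw [Ex_add, two_mul]
    exact add_le_add (h1 t ht x 1 (Or.inl rfl)) (h1 t ht x (-1) (Or.inr rfl))

theorem Cond.t0 (C : Cond F z p X R Γ ζ η η0 θ) : 0 ≤ θ := by nlinarith [C.z0, C.z1, C.G8]

open Classical in
theorem Zk_succ (hA : 0 < p.A) {t : ℕ} (ht : t < p.L) : Zk X (kf F z p (t + 1)) = Zk X (kf F z p t) +
    ∑ I ∈ trans univ, wt X (kf F z p t) I * if evA F z p t I then 1 else 0 := by
  rw [kf_succ hA ht, Zk_bump]
  congr 1
  refine sum_congr rfl fun I _ => ?_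
  congr 1
  refine if_congr ?_ rfl rfl
  exact ⟨fun h => ⟨_, rfl, h⟩, fun ⟨g, h1, h2⟩ => (show g = eF hA ht from Fin.ext h1) ▸ h2⟩

theorem Cond.ratio (C : Cond F z p X R Γ ζ η η0 θ) {H : ℕ → List Bool} (hG : Gd F z p X ζ H p.L) {t : ℕ}
    (ht : t < p.L) : 0 < (cntT p H t : ℝ) ∧
      (1 - 3 * θ) * (Zk X (kf F z p (t + 1)) / Zk X (kf F z p t)) ≤
        (cntT p H t + cntA F z p H t : ℕ) / cntT p H t ∧
      ((cntT p H t + cntA F z p H t : ℕ) : ℝ) / cntT p H t ≤
        (1 + 4 * θ) * (Zk X (kf F z p (t + 1)) / Zk X (kf F z p t)) := by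
  have G := C.good ht.le fun s hs => hG s (by omega)
  have hp : 0 < ∑ I, Wt F z p X H t I := G.hZ.trans_le G.tot.1
  have hQ : (0 : ℝ) < p.Q := by exact_mod_cast C.Q0
  have d1 := hG t ht none
  have d2 := hG t ht (some none)
  have h1 := C.prT G
  have hZ := G.hZ
  have ha : 0 < p.Q * pr F z p X H t none := by rw [pr_T]; positivity
  have hx : |(cntT p H t : ℝ) - p.Q * pr F z p X H t none| ≤ θ * (p.Q * pr F z p X H t none) :=
    d1.trans (by nlinarith)
  have e : p.Q * (Zk X (kf F z p (t + 1)) / ∑ I, Wt F z p X H t I) / (p.Q * pr F z p X H t none) =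
      Zk X (kf F z p (t + 1)) / Zk X (kf F z p t) := by rw [pr_T]; field_simp
  have e2 : Zk X (kf F z p (t + 1)) / ∑ I, Wt F z p X H t I =
      pr F z p X H t none + pr F z p X H t (some none) := by
    rw [pr_A, pr_T, Zk_succ C.A0 ht, add_div]
  have h6 := (pr_unit (F := F) (z := z) (X := X) H t (some none)).1
  have h7 := (pr_unit (F := F) (z := z) (X := X) H t none).1
  have := ratio_bound (y := (cntT p H t + cntA F z p H t : ℕ))
    (b := p.Q * (Zk X (kf F z p (t + 1)) / ∑ I, Wt F z p X H t I)) ha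
    (by rw [e2]; positivity) C.t0 C.t1 hx ?_
  · rwa [e] at this
  have h4 := C.t0
  simp only [cnt] at d1 d2
  rw [e2]
  push_cast
  rw [abs_le] at d1 d2 ⊢
  constructor <;> nlinarith [mul_nonneg hQ.le (mul_nonneg h4 h6)]

theorem Cond.acc (C : Cond F z p X R Γ ζ η η0 θ) {H : ℕ → List Bool} (hG : Gd F z p X ζ H p.L) :
    0 < denE p H ∧
    (1 - 3 * θ) ^ p.L * Zk X (kf F z p p.L) ≤ numE F z p H / denE p H * Zk X (kI F z p) ∧
    (numE F z p H : ℝ) / denE p H * Zk X (kI F z p) ≤ (1 + 4 * θ) ^ p.L * Zk X (kf F z p p.L) := by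
  refine ⟨prod_pos fun t ht => by exact_mod_cast (C.ratio hG (mem_range.1 ht)).1, ?_⟩
  have hZ : ∀ t ≤ p.L, 0 < Zk X (kf F z p t) := fun t ht =>
    (C.good ht fun s hs => hG s (by omega)).hZ
  have h0 := C.t0
  have h1 := C.t1
  have a1 : 0 ≤ 1 - 3 * θ := by linarith
  let y : ℕ → ℝ := fun t => (cntT p H t + cntA F z p H t : ℕ) / cntT p H t
  have hy : ∀ t, 0 ≤ y t := fun t => by positivity
  have main : ∀ s ≤ p.L, (1 - 3 * θ) ^ s * Zk X (kf F z p s) ≤ (∏ t ∈ range s, y t) * Zk X (kf F z p 0) ∧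
      (∏ t ∈ range s, y t) * Zk X (kf F z p 0) ≤ (1 + 4 * θ) ^ s * Zk X (kf F z p s) := by
    intro s hs
    induction s with
    | zero => simp
    | succ s ih =>
      obtain ⟨i1, i2⟩ := ih (by omega)
      have z1 := hZ s (by omega)
      have z2 := hZ (s + 1) hs
      obtain ⟨-, r1, r2⟩ := C.ratio hG (t := s) hs
      rw [prod_range_succ, mul_right_comm]
      constructor
      · refine le_trans (le_of_eq ?_) (mul_le_mul i1 r1 (by positivity) (le_trans (by positivity) i1))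
        field_simp; ring
      · refine le_trans (mul_le_mul i2 r2 (hy s) (by positivity)) (le_of_eq ?_)
        field_simp; ring
  have := main p.L le_rfl
  rw [kf_zero, prod_div_distrib] at this
  simpa only [numE, denE, prodR, Nat.cast_prod] using this

theorem blk_trj (ρ : List Bool) (g : ℕ) :
    blk p (trj F z p ρ g) = proc p.cs (fun _ => []) (st F z p) ρ g := by
  induction g with
  | zero => funext i; simp [trj, blk, proc]
  | succ g ih =>
    rw [trj, blk_append _ _ g (length_trj _ _ _ _ _) (by simp [move]), ih, proc, st]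
    rfl

end Vale.Agent.P328
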