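import Vale.Agent.P328.Params

/-! The numerical description of the instance, and its running time. -/

namespace Vale.Agent.P328

open Vale.Agent.PT Vale.Agent.P317

def skip (b : List Bool) : List Bool := (rest b).drop (lead b)

def dst (a b : ℕ) : ℕ := (a - b) + (b - a)

def costN (a b : ℕ) : ℕ := cond (Nat.beq a b) 0 (cond (Nat.beq a 0) 0 1 + cond (Nat.beq b 0) 0 1)

variable (z : List Bool)

def yZ : ℕ := z.length + 100
def wZ : List Bool := rest (rest (rest z))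
def mZ : ℕ := lead (wZ z)
def nZ : ℕ := lead (rest (wZ z))
def bZ (u : ℕ) : List Bool := skip^[u] (rest (rest (wZ z)))
def sZ (u : ℕ) : ℕ := valU ((rest (bZ z u)).take (lead (bZ z u)))
def best : ℕ → ℕ
  | 0 => 0
  | i + 1 => cond (decide (sZ z (best i) < sZ z i)) i (best i)
def oZ : ℕ := best z (mZ z)
def θZ : ℕ := (yZ z ^ 28).size
def KZ : ℕ := 8 * yZ z ^ 28
def RZ : ℕ := 2 * yZ z ^ 18
def LZ : ℕ := 64 * yZ z ^ 88
def μZ : ℕ := 512 * yZ z ^ 26
def EZ : ℕ := yZ z ^ 120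
def NZ : ℕ := (mZ z + 1) * (nZ z + 1) * KZ z
def ρZ : ℕ := (yZ z ^ 172).size
def AZ : ℕ := An (NZ z) (yZ z ^ 441) (8 * yZ z) (yZ z ^ 210)
def pZ : Par := mkP (NZ z) (yZ z ^ 441) (8 * yZ z) (yZ z ^ 210) (ρZ z) (lead (rest z))
def sf (u : ℕ) : Bool := !Nat.beq u (oZ z) && Nat.ble (θZ z + 1) (sZ z u).size
def exa (u : ℕ) : Bool := !Nat.beq u (oZ z) && !sf z u
def dd (u : ℕ) : ℕ := (sZ z u).size - θZ z - 1
def de (i j : ℕ) : ℕ := cond (Nat.beq i (oZ z)) (dd z (mZ z + j)) (min (dd z i) (dd z (mZ z + j)))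
def kcZ (i j u : ℕ) : ℕ := cond (sf z u) (min (KZ z * 2 ^ de z i j / 2 ^ dd z u) (KZ z)) 0
def tcZ (u : ℕ) : ℕ := cond (sf z u) (min (KZ z * sZ z u / 2 ^ dd z u) (KZ z ^ 2)) 0
def stZ (u : ℕ) : ℕ := cond (exa z u) (min (sZ z u) (KZ z)) 0
def chZ (i j : ℕ) : ℕ := cond (Nat.ble (i + 1) (mZ z)) (cond (Nat.ble (j + 1) (nZ z)) 0 (stZ z i + 1))
  (cond (Nat.ble (j + 1) (nZ z)) (stZ z (mZ z + j) + 1) 1)
def ci (g : ℕ) : ℕ := g / KZ z / (nZ z + 1)
def cj (g : ℕ) : ℕ := g / KZ z % (nZ z + 1)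
def sgZ (g : ℕ) : Bool := Nat.ble (chZ z (ci z g) (cj z g)) (g % KZ z)
def rlZ (g : ℕ) : Bool := Nat.ble (ci z g + 1) (mZ z) && Nat.ble (cj z g + 1) (nZ z)
def fsZ (g : ℕ) : Bool := !rlZ z g && Nat.ble 1 (g % KZ z)
def blZ (g : ℕ) (b : Bool) : ℕ :=
  cond b (cond (Nat.ble (cj z g + 1) (nZ z) && exa z (mZ z + cj z g)) (mZ z + cj z g + 1) 0)
    (cond (Nat.ble (ci z g + 1) (mZ z) && exa z (ci z g)) (ci z g + 1) 0)
def kz0 (g : ℕ) (b : Bool) : ℕ := cond (xor b (sgZ z g)) 0 (cond (rlZ z g) (2 * AZ z) (AZ z))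
def k0Z (v : ℕ) : ℕ := kz0 z (v / 2) (Nat.beq (v % 2) 1)
def a0Z (i j : ℕ) : ℕ := kz0 z j (sgZ z j) + AZ z * costN (blZ z i (!sgZ z i)) (blZ z j (sgZ z j)) + ρZ z
def nqZ (l : List Bool) (i j b : ℕ) : ℕ :=
  sumR (KZ z) fun a => b2n (bit l (2 * ((i * (nZ z + 1) + j) * KZ z + a) + b))
def nbZ (l : List Bool) (c : ℕ) : ℕ := sumR (NZ z) fun g =>
  b2n (bit l (2 * g + 1) && Nat.beq (blZ z g true) c) + b2n (bit l (2 * g) && Nat.beq (blZ z g false) c)
def dgZ (c : ℕ) : ℕ := sumR (NZ z) fun g => b2n (Nat.beq (blZ z g (sgZ z g)) c)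
def vaZ (l : List Bool) : Bool := allR (NZ z) fun g =>
  Nat.beq (nbZ z l (blZ z g true)) (dgZ z (blZ z g true)) &&
    Nat.beq (nbZ z l (blZ z g false)) (dgZ z (blZ z g false))
def exZ (l : List Bool) : ℕ :=
  μZ z * sumR (mZ z + 1) (fun i => sumR (nZ z + 1) fun j => nqZ z l i j 1 ^ 2 + nqZ z l i j 0 ^ 2) +
    (sumR (mZ z) (fun i => dst (sumR (nZ z) fun j => kcZ z i j i * nqZ z l i j 0) (tcZ z i) ^ 2) +
      sumR (nZ z) fun j => dst (sumR (mZ z) (fun i => kcZ z i j (mZ z + j) * nqZ z l i j 1) +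
        tcZ z (mZ z + j)) (KZ z * sumR (mZ z) fun i => kcZ z i j (mZ z + j)) ^ 2)
def wBZ (l : List Bool) : ℕ := cond (vaZ z l) (prodR (mZ z + 1) (fun i => prodR (nZ z + 1) fun j =>
  (KZ z - nqZ z l i j 1).factorial * (KZ z - nqZ z l i j 0).factorial) *
    ((LZ z - 1) ^ exZ z l * LZ z ^ (EZ z - exZ z l))) 0

def FZ : Fam := ⟨wBZ, k0Z, fsZ, sgZ, a0Z⟩

def GZ : ℕ := sumR (2 * RZ z + 1) fun b => (LZ z - 1) ^ (KZ z ^ 2 * dst b (RZ z) ^ 2) *
  LZ z ^ (KZ z ^ 2 * RZ z ^ 2 - KZ z ^ 2 * dst b (RZ z) ^ 2)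
def cN : ℕ := wBZ z (init FZ z (pZ z)) * 2 ^ sumR (NZ z) (fun g => kz0 z g (sgZ z g)) *
  (prodR (mZ z) (fun i => prodR (nZ z) fun j => 2 ^ de z i j) *
    prodR (mZ z + nZ z) fun u => cond (sf z u) (LZ z ^ (KZ z ^ 2 * RZ z ^ 2)) 1)
def cD : ℕ := LZ z ^ EZ z * ((KZ z).factorial ^ (mZ z * nZ z) * (KZ z - 1).factorial ^ (mZ z + nZ z + 1)) *
  2 ^ sumR (NZ z) (fun g => fld FZ z (pZ z) (pZ z).L g (fsZ z g)) *
    prodR (mZ z + nZ z) fun u => cond (sf z u) (2 ^ dd z u * GZ z) 1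

def cut : ℕ := lead z + 1 + (lead (rest z) + 1) + (lead (rest (rest z)) + 1) + lead (rest (rest z))
def hist (ρ : List Bool) : ℕ → List Bool := blk (pZ z) (trj FZ z (pZ z) ρ (tot (pZ z)))
def numF : List Bool :=
  (numE FZ (z.take (cut z)) (pZ (z.take (cut z))) (hist (z.take (cut z)) (z.drop (cut z))) *
    cN (z.take (cut z))).bits
def denF : List Bool :=
  (denE (pZ (z.take (cut z))) (hist (z.take (cut z)) (z.drop (cut z))) * cD (z.take (cut z))).bits

end Vale.Agent.P328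

namespace Vale.Agent.P328

open Vale.Agent.PT Vale.Agent.P317

variable {α : Type} [Ctx Bool α] {z l : α → List Bool} {i j u g : α → ℕ} {b : α → Bool}

@[fun_prop] theorem pt_skip (hz : PT Bool z) : PT Bool fun a => skip (z a) := by unfold skip; fun_prop
@[fun_prop] theorem pt_dst (hi : PT Bool i) (hj : PT Bool j) : PT Bool fun a => dst (i a) (j a) := by
  unfold dst; fun_prop
@[fun_prop] theorem pt_costN (hi : PT Bool i) (hj : PT Bool j) : PT Bool fun a => costN (i a) (j a) := by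
  unfold costN; fun_prop

theorem length_skip (b : List Bool) (u : ℕ) : (skip^[u] b).length ≤ b.length := by
  induction u with
  | zero => rfl
  | succ u ih => rw [Function.iterate_succ_apply']; simp [skip, rest]; omega

theorem best_le (z : List Bool) (i : ℕ) : best z i ≤ i - 1 := by
  induction i with
  | zero => rfl
  | succ i ih => rw [best]; cases decide (sZ z (best z i) < sZ z i) <;> simp; omega

variable (hz : PT Bool z)
include hz

@[fun_prop] theorem pt_yZ : PT Bool fun a => yZ (z a) := by unfold yZ; fun_prop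
@[fun_prop] theorem pt_wZ : PT Bool fun a => wZ (z a) := by unfold wZ; fun_prop
@[fun_prop] theorem pt_mZ : PT Bool fun a => mZ (z a) := by unfold mZ; fun_prop
@[fun_prop] theorem pt_nZ : PT Bool fun a => nZ (z a) := by unfold nZ; fun_prop
@[fun_prop] theorem pt_bZ (hu : PT Bool u) : PT Bool fun a => bZ (z a) (u a) :=
  have h : PT Bool fun a => rest (rest (wZ (z a))) := by fun_prop
  PT.natRec hu (fun a i => bZ (z a) i) h (fun x => skip x.2.2) (by fun_prop)
    (fun _ _ => Function.iterate_succ_apply' _ _ _) ⟨_, h.size_pb, fun a i _ => length_skip _ _⟩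
@[fun_prop] theorem bt_sZ (hu : PT Bool u) : BT fun a => sZ (z a) (u a) := by unfold sZ; fun_prop
@[fun_prop] theorem pt_best (hu : PT Bool u) : PT Bool fun a => best (z a) (u a) :=
  PT.natRecN hu (fun a i => best (z a) i) (PT.const _)
    (fun x => cond (decide (sZ (z x.1) x.2.2 < sZ (z x.1) x.2.1)) x.2.1 x.2.2) (by fun_prop) (fun _ _ => rfl)
    ⟨u, hu.pb, fun a i hi => (best_le _ _).trans (by omega)⟩
@[fun_prop] theorem pt_oZ : PT Bool fun a => oZ (z a) := by unfold oZ; fun_prop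
@[fun_prop] theorem pt_θZ : PT Bool fun a => θZ (z a) := by unfold θZ; fun_prop
@[fun_prop] theorem pt_KZ : PT Bool fun a => KZ (z a) := by unfold KZ; fun_prop
@[fun_prop] theorem pt_RZ : PT Bool fun a => RZ (z a) := by unfold RZ; fun_prop
@[fun_prop] theorem pt_LZ : PT Bool fun a => LZ (z a) := by unfold LZ; fun_prop
@[fun_prop] theorem pt_μZ : PT Bool fun a => μZ (z a) := by unfold μZ; fun_prop
@[fun_prop] theorem pt_EZ : PT Bool fun a => EZ (z a) := by unfold EZ; fun_prop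
@[fun_prop] theorem pt_NZ : PT Bool fun a => NZ (z a) := by unfold NZ; fun_prop
@[fun_prop] theorem pt_ρZ : PT Bool fun a => ρZ (z a) := by unfold ρZ; fun_prop
@[fun_prop] theorem pt_AZ : PT Bool fun a => AZ (z a) := by unfold AZ; fun_prop
@[fun_prop] theorem pt_pZ : PT Bool fun a => pZ (z a) := by unfold pZ; fun_prop
@[fun_prop] theorem pt_sf (hu : PT Bool u) : PT Bool fun a => sf (z a) (u a) := by unfold sf; fun_prop
@[fun_prop] theorem pt_exa (hu : PT Bool u) : PT Bool fun a => exa (z a) (u a) := by unfold exa; fun_prop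
@[fun_prop] theorem pt_dd (hu : PT Bool u) : PT Bool fun a => dd (z a) (u a) := by unfold dd; fun_prop
@[fun_prop] theorem pt_de (hi : PT Bool i) (hj : PT Bool j) : PT Bool fun a => de (z a) (i a) (j a) := by
  unfold de; fun_prop
@[fun_prop] theorem pt_kcZ (hi : PT Bool i) (hj : PT Bool j) (hu : PT Bool u) :
    PT Bool fun a => kcZ (z a) (i a) (j a) (u a) := by
  unfold kcZ
  exact PT.cond' (by fun_prop) (BT.cap (by fun_prop) (by fun_prop)) (by fun_prop)
@[fun_prop] theorem pt_tcZ (hu : PT Bool u) : PT Bool fun a => tcZ (z a) (u a) := by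
  unfold tcZ
  exact PT.cond' (by fun_prop) (BT.cap (by fun_prop) (by fun_prop)) (by fun_prop)
@[fun_prop] theorem pt_stZ (hu : PT Bool u) : PT Bool fun a => stZ (z a) (u a) := by
  unfold stZ
  exact PT.cond' (by fun_prop) (BT.cap (by fun_prop) (by fun_prop)) (by fun_prop)
@[fun_prop] theorem pt_chZ (hi : PT Bool i) (hj : PT Bool j) : PT Bool fun a => chZ (z a) (i a) (j a) := by
  unfold chZ; fun_prop
@[fun_prop] theorem pt_ci (hg : PT Bool g) : PT Bool fun a => ci (z a) (g a) := by unfold ci; fun_prop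
@[fun_prop] theorem pt_cj (hg : PT Bool g) : PT Bool fun a => cj (z a) (g a) := by unfold cj; fun_prop
@[fun_prop] theorem pt_sgZ (hg : PT Bool g) : PT Bool fun a => sgZ (z a) (g a) := by unfold sgZ; fun_prop
@[fun_prop] theorem pt_rlZ (hg : PT Bool g) : PT Bool fun a => rlZ (z a) (g a) := by unfold rlZ; fun_prop
@[fun_prop] theorem pt_fsZ (hg : PT Bool g) : PT Bool fun a => fsZ (z a) (g a) := by unfold fsZ; fun_prop
@[fun_prop] theorem pt_blZ (hg : PT Bool g) (hb : PT Bool b) : PT Bool fun a => blZ (z a) (g a) (b a) := by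
  unfold blZ; fun_prop
@[fun_prop] theorem pt_kz0 (hg : PT Bool g) (hb : PT Bool b) : PT Bool fun a => kz0 (z a) (g a) (b a) := by
  unfold kz0; fun_prop
@[fun_prop] theorem pt_nqZ (hl : PT Bool l) (hi : PT Bool i) (hj : PT Bool j) (hu : PT Bool u) :
    PT Bool fun a => nqZ (z a) (l a) (i a) (j a) (u a) := by unfold nqZ; fun_prop
@[fun_prop] theorem pt_nbZ (hl : PT Bool l) (hu : PT Bool u) : PT Bool fun a => nbZ (z a) (l a) (u a) := by
  unfold nbZ; fun_prop
@[fun_prop] theorem pt_dgZ (hu : PT Bool u) : PT Bool fun a => dgZ (z a) (u a) := by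
  unfold dgZ; fun_prop
@[fun_prop] theorem pt_vaZ (hl : PT Bool l) : PT Bool fun a => vaZ (z a) (l a) := by
  unfold vaZ; fun_prop
@[fun_prop] theorem pt_exZ (hl : PT Bool l) : PT Bool fun a => exZ (z a) (l a) := by
  unfold exZ; fun_prop
@[fun_prop] theorem bt_wBZ (hl : PT Bool l) : BT fun a => wBZ (z a) (l a) := by
  unfold wBZ; fun_prop

@[fun_prop] theorem pt_k0Z (hu : PT Bool u) : PT Bool fun a => k0Z (z a) (u a) := by
  unfold k0Z; fun_prop
@[fun_prop] theorem pt_a0Z (hi : PT Bool i) (hj : PT Bool j) : PT Bool fun a => a0Z (z a) (i a) (j a) := by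
  unfold a0Z; fun_prop

omit hz in
instance : Poly FZ where
  wB := by dsimp only [FZ]; exact bt_wBZ (PT.fst PT.id') (PT.snd PT.id')
  k0 := pt_k0Z (PT.fst PT.id') (PT.snd PT.id')
  fs := pt_fsZ (PT.fst PT.id') (PT.snd PT.id')
  sg := pt_sgZ (PT.fst PT.id') (PT.snd PT.id')
  a0 := pt_a0Z (PT.fst PT.id') (PT.fst (PT.snd PT.id')) (PT.snd (PT.snd PT.id'))

@[fun_prop] theorem bt_LZ : BT fun a => LZ (z a) := BT.ofU (pt_LZ hz)
@[fun_prop] theorem bt_GZ : BT fun a => GZ (z a) := by unfold GZ; fun_prop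
@[fun_prop] theorem bt_cN : BT fun a => cN (z a) :=
  ((bt_wBZ hz (pt_init FZ hz (pt_pZ hz))).mul (BT.pow2 (by fun_prop))).mul (by fun_prop)
@[fun_prop] theorem bt_cD : BT fun a => cD (z a) := by unfold cD; fun_prop
@[fun_prop] theorem pt_cut : PT Bool fun a => cut (z a) := by unfold cut; fun_prop
@[fun_prop] theorem pt_hist (hl : PT Bool l) (hu : PT Bool u) : PT Bool fun a => hist (z a) (l a) (u a) :=
  pt_blk (pt_pZ hz) (pt_trj FZ hz (pt_pZ hz) hl (pt_tot (pt_pZ hz))) hu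

theorem bt_out (hl : PT Bool l) : (BT fun a => numE FZ (z a) (pZ (z a)) (hist (z a) (l a)) * cN (z a)) ∧
    BT fun a => denE (pZ (z a)) (hist (z a) (l a)) * cD (z a) := by
  have h2 : PT Bool fun x : α × ℕ => hist (z x.1) (l x.1) x.2 :=
    pt_hist (by fun_prop) (by fun_prop) (by fun_prop)
  exact ⟨BT.mul (bt_numE FZ hz (pt_pZ hz) h2) (bt_cN hz), BT.mul (bt_denE (pt_pZ hz) h2) (bt_cD hz)⟩

omit hz in
theorem pt_out : PT Bool numF ∧ PT Bool denF := by
  have h1 : PT Bool fun z : List Bool => z.take (cut z) := pt_take PT.id' (pt_cut PT.id')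
  have h2 : PT Bool fun z : List Bool => z.drop (cut z) := pt_drop PT.id' (pt_cut PT.id')
  obtain ⟨a, b⟩ := bt_out h1 h2
  exact ⟨a.bits.congr fun _ => by rw [numF], b.bits.congr fun _ => by rw [denF]⟩

attribute [irreducible] yZ KZ RZ LZ μZ EZ NZ ρZ AZ θZ mZ nZ sZ oZ

end Vale.Agent.P328
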