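import Vale.Agent.P328.Main2

/-! The choice of the parameters of the annealing. -/

namespace Vale.Agent.P328

open Finset Vale.Agent.PT Vale.Agent.P317

def Gn (n R : ℕ) : ℕ := 8 + n ^ 2 * R
def An (n R k wb : ℕ) : ℕ := 2 * (32 * k * Gn n R + wb + 4 * n)
def Ln (n R k wb : ℕ) : ℕ := 2 * An n R k wb * n
def Yn (n R k wb : ℕ) : ℕ := 8 * k * (Ln n R k wb + 1) * Gn n R
def Tn (n R k wb : ℕ) : ℕ :=
  2 * (60 * Gn n R * R * (n + 1) ^ 3 * (4 * (Ln n R k wb + 1) * Yn n R k wb) * (2 * (4 * n + 1))) ^ 2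
def Jn (n R k wb : ℕ) : ℕ := (Ln n R k wb + 1) * ((n ^ 2 + 2) * 2)
def Qn (n R k wb l : ℕ) : ℕ := 16 * Yn n R k wb ^ 2 * (l + Jn n R k wb)
def csn (n R k wb s : ℕ) : ℕ := 2 * Nat.size (2 * n) + 2 + (wb + (2 * n * (2 * An n R k wb + 2 * An n R k wb) +
  (Ln n R k wb + n * (n * (4 * An n R k wb + s + 2 * Ln n R k wb)))) + 1)

def mkP (n R k wb s l : ℕ) : Par :=
  (n, 0, An n R k wb, Tn n R k wb, Qn n R k wb l, Nat.size (2 * n), csn n R k wb s)

section
variable {α : Type} [Ctx Bool α] {n R k wb s l : α → ℕ} (hn : PT Bool n) (hR : PT Bool R) (hk : PT Bool k)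
  (hw : PT Bool wb)
include hn hR hk hw

@[fun_prop] theorem pt_An : PT Bool fun a => An (n a) (R a) (k a) (wb a) := by unfold An Gn; fun_prop

@[fun_prop] theorem pt_mkP (hs : PT Bool s) (hl : PT Bool l) :
    PT Bool fun a => mkP (n a) (R a) (k a) (wb a) (s a) (l a) := by
  have h2 : PT Bool fun a => Gn (n a) (R a) := by unfold Gn; fun_prop
  have h4 := pt_An hn hR hk hw
  have h5 : PT Bool fun a => Ln (n a) (R a) (k a) (wb a) := by unfold Ln; fun_prop
  have h6 : PT Bool fun a => Yn (n a) (R a) (k a) (wb a) := by unfold Yn; fun_prop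
  have h7 : PT Bool fun a => Tn (n a) (R a) (k a) (wb a) := by unfold Tn; fun_prop
  have h8 : PT Bool fun a => Jn (n a) (R a) (k a) (wb a) := by unfold Jn; fun_prop
  have h9 : PT Bool fun a => Qn (n a) (R a) (k a) (wb a) (l a) := by unfold Qn; fun_prop
  have h10 : PT Bool fun a => csn (n a) (R a) (k a) (wb a) (s a) := by unfold csn; fun_prop
  have h11 : PT Bool fun a => Nat.size (2 * n a) := by fun_prop
  exact hn.pair ((PT.const _).pair (h4.pair (h7.pair (h9.pair (h11.pair h10)))))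

end

variable {n R k wb s l : ℕ}

theorem A_big (hk : 1 ≤ k) : (2 : ℝ) ^ n * 2 ^ wb ≤ 1 / (4 * Yn n R k wb) * 2 ^ An n R k wb := by
  have hG : 0 < Gn n R := by unfold Gn; omega
  have hY : 0 < Yn n R k wb := by unfold Yn; positivity
  rw [div_mul_eq_mul_div, le_div_iff₀ (by positivity), one_mul]
  set u := 32 * k * Gn n R with hu
  have h1 := two_mul_le_pow (u + wb + 4 * n)
  have h2 : u ≤ 2 ^ u := Nat.lt_two_pow_self.le
  have h3 : 2 * n + 1 ≤ 2 ^ (3 * n) :=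
    Nat.lt_two_pow_self.trans_le (Nat.pow_le_pow_right (by norm_num) (by omega))
  have h5 : Ln n R k wb + 1 ≤ An n R k wb * (2 * n + 1) := by
    have : 0 < An n R k wb := by unfold An; positivity
    unfold Ln; nlinarith
  have h6 : 2 ^ n * 2 ^ wb * (4 * Yn n R k wb) ≤ 2 ^ An n R k wb := by
    calc 2 ^ n * 2 ^ wb * (4 * Yn n R k wb) = 2 ^ n * 2 ^ wb * (u * (Ln n R k wb + 1)) := by
          unfold Yn; rw [hu]; ring
      _ ≤ 2 ^ n * 2 ^ wb * (2 ^ u * (2 ^ (u + wb + 4 * n) * 2 ^ (3 * n))) := by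
        gcongr
        exact h5.trans (Nat.mul_le_mul h1 h3)
      _ = _ := by simp only [← pow_add]; congr 1; unfold An; ring
  exact_mod_cast h6

theorem k_le_Y : k ≤ Yn n R k wb := by
  have hG : 1 ≤ Gn n R := by unfold Gn; omega
  unfold Yn
  calc k = k * 1 * 1 := by ring
    _ ≤ 8 * k * (Ln n R k wb + 1) * Gn n R := by gcongr <;> omega

theorem cond_mkP {F : Fam} {z : List Bool} {X : Base (Fin (mkP n R k wb s l).m)} (hk : 1 ≤ k)
    (rep : Rep F z _ X) (hw : ∀ I, X.w I ≤ 2 ^ wb) (h1 : ∀ v, F.k0 z v ≤ 2 * An n R k wb)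
    (h2 : ∀ i j, F.a0 z i j ≤ 4 * An n R k wb + s)
    (g0 : GoodK X (kI F z _) (fun i j => 2 ^ F.a0 z i j) R)
    (s0 : Zk X (kI F z _) ≤ (1 + 1 / (4 * Yn n R k wb)) * wt X (kI F z _) (S0 F z _)) :
    Cond F z _ X R (Gn n R) (1 / Yn n R k wb) (1 / (4 * (Ln n R k wb + 1) * Yn n R k wb))
      (1 / (4 * Yn n R k wb)) (1 / (8 * k * (Ln n R k wb + 1))) := by
  have hG : 0 < Gn n R := by unfold Gn; omega
  have hR : 0 < R := by exact_mod_cast lt_of_lt_of_le (show (0 : ℝ) < 8 by norm_num) g0.hR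
  have hY : 0 < Yn n R k wb := by unfold Yn; positivity
  have hm : (mkP n R k wb s l).m = n := rfl
  have hL : (mkP n R k wb s l).L = Ln n R k wb := rfl
  have hκ : (mkP n R k wb s l).κ = Nat.size (2 * n) := rfl
  have hY' : (1 : ℝ) ≤ Yn n R k wb := by exact_mod_cast hY
  have hk' : (1 : ℝ) ≤ k := by exact_mod_cast hk
  have hL0 : (0 : ℝ) ≤ Ln n R k wb := Nat.cast_nonneg _
  refine ⟨rep, show 0 < Tn n R k wb by unfold Tn; positivity,
    show 0 < Qn n R k wb l by unfold Qn Jn; positivity,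
    show 0 < An n R k wb by unfold An; positivity, (Nat.lt_size_self (2 * n)).le,
    ⟨wb, _, _, hw, h1, h2, le_rfl⟩, ?_, by rw [hm]; unfold Gn; push_cast; rfl, g0, s0, by positivity, ?_,
    by positivity, ?_, ?_⟩
  · have h1 : (2 : ℝ) ^ Nat.size (2 * n) ≤ 4 * n + 1 := by
      have := pow_size_le (2 * n)
      exact_mod_cast (by omega : 2 ^ Nat.size (2 * n) ≤ 4 * n + 1)
    have e : ((mkP n R k wb s l).T : ℝ) = 2 * (60 * Gn n R * R * (n + 1) ^ 3 *
        (4 * (Ln n R k wb + 1) * Yn n R k wb) * (2 * (4 * n + 1))) ^ 2 := by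
      change (Tn n R k wb : ℝ) = _
      unfold Tn; push_cast; ring
    rw [e, cP, hκ, hm]
    calc _ = (1 / (4 * (Ln n R k wb + 1) * Yn n R k wb)) ^ 2 * (1 / (2 * (4 * n + 1)) ^ 2) *
        (2 * (60 * Gn n R * R * (n + 1) ^ 3 * (4 * (Ln n R k wb + 1) * Yn n R k wb) *
          (2 * (4 * n + 1))) ^ 2 : ℝ) := by field_simp
      _ ≤ _ := by gcongr
  · rw [hL]; refine le_of_eq ?_; field_simp; ring
  · refine le_of_eq ?_
    have : (0 : ℝ) < Gn n R := by exact_mod_cast hG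
    unfold Yn; push_cast; field_simp
  · rw [div_le_div_iff₀ (by positivity) (by norm_num)]; nlinarith

theorem fail_le (hk : 1 ≤ k) :
    ((mkP n R k wb s l).L : ℝ) * ((((mkP n R k wb s l).m : ℝ) ^ 2 + 2) * 2) *
      Real.exp (-((mkP n R k wb s l).Q * (1 / Yn n R k wb) ^ 2 / 16)) ≤ 1 / 2 ^ l := by
  have hG : 0 < Gn n R := by unfold Gn; omega
  have hY : (0 : ℝ) < Yn n R k wb := by unfold Yn; positivity
  have e : ((mkP n R k wb s l).Q : ℝ) * (1 / Yn n R k wb) ^ 2 / 16 = l + Jn n R k wb := by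
    change (Qn n R k wb l : ℝ) * _ / 16 = _
    unfold Qn; push_cast; field_simp
  have h1 : ((mkP n R k wb s l).L : ℝ) * ((((mkP n R k wb s l).m : ℝ) ^ 2 + 2) * 2) ≤ Jn n R k wb := by
    change (Ln n R k wb : ℝ) * (((n : ℝ) ^ 2 + 2) * 2) ≤ _
    unfold Jn; push_cast; gcongr; linarith
  have h2 : (Jn n R k wb : ℝ) ≤ Real.exp (Jn n R k wb) := by
    linarith [Real.add_one_le_exp (Jn n R k wb : ℝ)]
  have h3 : (2 : ℝ) ^ l ≤ Real.exp l := by
    rw [← mul_one (l : ℝ), Real.exp_nat_mul]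
    gcongr
    linarith [Real.add_one_le_exp 1]
  rw [e, Real.exp_neg, Real.exp_add, ← div_eq_mul_inv, div_le_div_iff₀ (by positivity) (by positivity)]
  nlinarith [mul_le_mul (h1.trans h2) h3 (by positivity) (by positivity)]

theorem est_bound (hk : 1 ≤ k) (L : ℕ) {η q Z0 ZL w Zp : ℝ} (hη0 : 0 ≤ η) (hη : η ≤ 1 / (4 * k)) (hq : 0 ≤ q)
    (hZ : 0 ≤ Zp) (a1 : w ≤ Z0) (a2 : Z0 ≤ (1 + η) * w) (b1 : Zp ≤ ZL) (b2 : ZL ≤ (1 + η) * Zp)
    (c1 : (1 - 3 * (1 / (8 * k * (L + 1)))) ^ L * ZL ≤ q * Z0)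
    (c2 : q * Z0 ≤ (1 + 4 * (1 / (8 * k * (L + 1)))) ^ L * ZL) :
    (1 - 1 / k) * Zp ≤ q * w ∧ q * w ≤ (1 + 2 / k) * Zp := by
  have hk' : (1 : ℝ) ≤ k := by exact_mod_cast hk
  have hL0 : (0 : ℝ) ≤ L := Nat.cast_nonneg _
  have h0 : (1 : ℝ) / (8 * k * (L + 1)) ≤ 1 / 8 := by
    rw [div_le_div_iff₀ (by positivity) (by norm_num)]; nlinarith
  have h1 : (0 : ℝ) < 1 / k := by positivity
  have h2 : (1 : ℝ) / k ≤ 1 := by rw [div_le_one (by positivity)]; exact hk'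
  rw [← one_div_mul_one_div] at hη
  constructor
  · have := one_add_mul_le_pow (a := -(3 * (1 / (8 * k * (L + 1))))) (R := ℝ) (by linarith) L
    have e : (L : ℝ) * (3 * (1 / (8 * k * (L + 1)))) ≤ 3 / 8 * (1 / k) := by
      rw [show (L : ℝ) * (3 * (1 / (8 * k * (L + 1)))) = 3 / 8 * (1 / k) * (L / (L + 1)) by field_simp]
      exact mul_le_of_le_one_right (by positivity) (by rw [div_le_one (by positivity)]; linarith)
    rw [← sub_eq_add_neg] at this
    have d1 : (1 - 3 / 8 * (1 / k)) * Zp ≤ q * ((1 + η) * w) :=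
      (mul_le_mul (by linarith) b1 hZ (le_trans (by linarith) this)).trans
        (c1.trans (mul_le_mul_of_nonneg_left a2 hq))
    refine le_of_mul_le_mul_left (a := 1 + η) ?_ (by linarith)
    nlinarith [mul_nonneg hZ (mul_nonneg hη0 h1.le), mul_le_mul_of_nonneg_left hη hZ, mul_nonneg hZ h1.le]
  · have d0 : (1 + 4 * (1 / (8 * k * (L + 1))) : ℝ) ^ L ≤ 1 + 1 / k :=
      (pow_le_pow_right₀ (le_add_of_nonneg_right (by positivity)) (Nat.le_succ L)).trans (c1_le hk L)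
    have d1 : q * w ≤ (1 + 1 / k) * ((1 + η) * Zp) := (mul_le_mul_of_nonneg_left a1 hq).trans
      (c2.trans (mul_le_mul d0 b2 (hZ.trans b1) (by linarith)))
    rw [show (2 : ℝ) / k = 2 * (1 / k) by ring]
    nlinarith [mul_le_mul_of_nonneg_left hη hZ, mul_nonneg hZ h1.le,
      mul_le_mul_of_nonneg_left h2 (mul_nonneg hZ hη0)]

end Vale.Agent.P328
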