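import Vale.Agent.P328.Est
import Vale.Agent.P328.Defs

/-! Accuracy of the output, parsing, and the approximation scheme. -/

namespace Vale.Agent.P328

open Finset Vale.Agent.P317 Vale.Agent.PT

theorem fin_bound {k k' : ℕ} (hk : 1 ≤ k) (hk' : 8 * k ≤ k') {x C S P a b N M : ℝ} (hC : 0 < C) (hP : 0 < P)
    (e : P * S = a + b) (hc : Close (1 / k') a (N * M)) (hM : 1 ≤ M) (hN : 1 ≤ N) (ha : 0 ≤ a) (b0 : 0 ≤ b)
    (b1 : b ≤ 1 / k') (h1 : (1 - 1 / k') * (C * S) ≤ x) (h2 : x ≤ (1 + 2 / k') * (C * S)) :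
    (1 - 1 / k) * N ≤ x * P / (C * M) ∧ x * P / (C * M) ≤ (1 + 1 / k) * N := by
  have k1 : (1 : ℝ) ≤ k := by exact_mod_cast hk
  have k2 : (8 * k : ℝ) ≤ k' := by exact_mod_cast hk'
  have g0 : (0 : ℝ) < 1 / k' := by apply one_div_pos.2; linarith
  have g1 : 8 * (1 / k' : ℝ) ≤ 1 / k := by
    rw [mul_one_div, div_le_div_iff₀ (by linarith) (by linarith)]; linarith
  have g2 : (1 : ℝ) / k ≤ 1 := by rw [div_le_one (by linarith)]; exact k1
  rw [show (2 : ℝ) / k' = 2 * (1 / k') by ring] at h2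
  generalize (1 : ℝ) / k' = γ at *
  generalize (1 : ℝ) / k = ε at *
  have e1 : Real.exp γ ≤ 1 + 2 * γ := by
    have := (abs_le.1 (Real.abs_exp_sub_one_sub_id_le (x := γ) (by rw [abs_le]; constructor <;> linarith))).2
    nlinarith
  have hNM : 1 ≤ N * M := one_le_mul_of_one_le_of_one_le hN hM
  have c1 := hc.1.trans (mul_le_mul_of_nonneg_right e1 (by linarith))
  have c2 := hc.2.trans (mul_le_mul_of_nonneg_right e1 ha)
  constructor
  · rw [le_div_iff₀ (by positivity)]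
    have d1 : (1 - γ) * C * (a + b) ≤ x * P := by
      rw [← e]; nlinarith [mul_le_mul_of_nonneg_right h1 hP.le]
    have d2 : (1 - 2 * γ) * (N * M) ≤ a := by nlinarith [mul_nonneg ha (sq_nonneg γ)]
    have d3 : (1 - ε) * (N * M) ≤ (1 - γ) * (a + b) := by
      nlinarith [mul_le_mul_of_nonneg_left d2 (show 0 ≤ 1 - γ by linarith),
        mul_nonneg (show 0 ≤ 1 - γ by linarith) b0, mul_nonneg (sq_nonneg γ) (show 0 ≤ N * M by linarith)]
    nlinarith [mul_le_mul_of_nonneg_left d3 hC.le]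
  · rw [div_le_iff₀ (by positivity)]
    have d1 : x * P ≤ (1 + 2 * γ) * C * (a + b) := by
      rw [← e]; nlinarith [mul_le_mul_of_nonneg_right h2 hP.le]
    have d2 : a + b ≤ (1 + 3 * γ) * (N * M) := by nlinarith
    have d3 : (1 + 2 * γ) * (a + b) ≤ (1 + ε) * (N * M) :=
      (mul_le_mul_of_nonneg_left d2 (by linarith)).trans (by
        rw [← mul_assoc]; exact mul_le_mul_of_nonneg_right (by nlinarith) (by linarith))
    nlinarith [mul_le_mul_of_nonneg_left d3 hC.le]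

theorem mkP_m (n R k wb s l : ℕ) : (mkP n R k wb s l).m = n := rfl

theorem mkP_L (n R k wb s l : ℕ) : (mkP n R k wb s l).L = Ln n R k wb := rfl

theorem mkP_r (n R k wb s l : ℕ) : (mkP n R k wb s l).r = 0 := rfl

theorem mkP_A (n R k wb s l : ℕ) : (mkP n R k wb s l).A = An n R k wb := rfl

theorem fe_sS {G : Type} [Fintype G] [DecidableEq G] (k : G × Bool → ℕ) (s : G → Bool) :
    fe k (sS s) = ∑ g, k (g, s g) := by
  rw [fe, sS, sum_filter, Fintype.sum_prod_type]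
  exact sum_congr rfl fun g _ => by simp

theorem prod_idx {M : Type} [CommMonoid M] {m n : ℕ} (f : ℕ → M) :
    ∏ u : Fin m ⊕ Fin n, f (idx u) = ∏ u ∈ range (m + n), f u := by
  rw [Fintype.prod_sum_type, prod_range_add, prod_range, prod_range]; rfl

variable {z : List Bool}

theorem pZ_m (z : List Bool) : (pZ z).m = (mZ z + 1) * (nZ z + 1) * KZ z := by rw [pZ, mkP_m, NZ]

theorem Gam_eq (hm : 0 < mZ z) : (TZ z hm).Γ (1 / LZ z) = GZ z / LZ z ^ (KZ z ^ 2 * RZ z ^ 2) := by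
  have l2 := L2 z
  have l0 : (0 : ℝ) < LZ z := by exact_mod_cast (by omega)
  rw [Tb.Γ, GZ, sumR, Nat.cast_sum, sum_div]
  refine sum_congr rfl fun b hb => ?_
  have hb' : b < 2 * RZ z + 1 := mem_range.1 hb
  have a : KZ z ^ 2 * dst b (RZ z) ^ 2 ≤ KZ z ^ 2 * RZ z ^ 2 :=
    Nat.mul_le_mul_left _ (Nat.pow_le_pow_left (by unfold dst; omega) _)
  obtain ⟨d, hd⟩ := Nat.exists_eq_add_of_le a
  change (1 - 1 / LZ z : ℝ) ^ ((KZ z : ℤ) ^ 2 * ((b : ℤ) - RZ z) ^ 2) = _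
  rw [← cast_dst, ← Nat.cast_pow, ← Nat.cast_pow, ← Nat.cast_mul, zpow_natCast, hd, Nat.add_sub_cancel_left]
  push_cast [Nat.cast_sub (show 1 ≤ LZ z by omega)]
  rw [one_sub_div l0.ne', div_pow, pow_add]
  field_simp

theorem Gam_one (hm : 0 < mZ z) : 1 ≤ (TZ z hm).Γ (1 / LZ z) := by
  have l0 : (1 : ℝ) < LZ z := by exact_mod_cast L2 z
  have c0 : (0 : ℝ) < 1 - 1 / LZ z := by rw [sub_pos, div_lt_one (by linarith)]; exact l0
  exact le_trans (by simp) (single_le_sum (f := fun b : ℕ => (1 - 1 / LZ z : ℝ) ^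
    (((TZ z hm).K : ℤ) ^ 2 * ((b : ℤ) - (TZ z hm).R) ^ 2)) (fun _ _ => by positivity)
    (mem_range.2 (show (TZ z hm).R < 2 * (TZ z hm).R + 1 by omega)))

theorem GZ_pos (hm : 0 < mZ z) : 0 < GZ z := by
  have l0 : (0 : ℝ) < LZ z := by exact_mod_cast lt_of_lt_of_le (by norm_num) (L2 z)
  have G1 := Gam_one hm
  rw [Gam_eq, le_div_iff₀ (by positivity)] at G1
  exact_mod_cast lt_of_lt_of_le (a := (0 : ℝ)) (by positivity) G1

theorem M_eq (hm : 0 < mZ z) : (∏ u, if (TZ z hm).sf u then (TZ z hm).D u * (TZ z hm).Γ (1 / LZ z) else 1) =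
    (prodR (mZ z + nZ z) fun u => cond (sf z u) (2 ^ dd z u * GZ z) 1 : ℕ) /
    (prodR (mZ z + nZ z) fun u => cond (sf z u) (LZ z ^ (KZ z ^ 2 * RZ z ^ 2)) 1 : ℕ) := by
  have : ∀ (b : Bool) (D G L : ℕ), (if b = true then (D : ℝ) * (G / L) else 1) =
      (cond b (D * G) 1 : ℕ) / (cond b L 1 : ℕ) := fun b D G L => by cases b <;> simp [mul_div_assoc]
  rw [Gam_eq, ← Nat.cast_pow, prodR, prodR, ← prod_idx, ← prod_idx, Nat.cast_prod, Nat.cast_prod,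
    ← prod_div_distrib]
  exact prod_congr rfl fun u _ => this _ _ _ _

variable {p : Par} (hp : p.m = (mZ z + 1) * (nZ z + 1) * KZ z)

theorem HZ.final (h : HZ z) {q : ℝ} {a b k : ℕ} (k1 : 1 ≤ k) (k2 : k ≤ yZ z)
    (f1 : (1 - 1 / (8 * yZ z : ℕ)) * ((∑ I ∈ pureT ((TZ z h.hm).rl (eZ z h.hm hp))
      ((TZ z h.hm).fs (eZ z h.hm hp)), ((h.ps hp).base (LZ z ^ EZ z)).w I) * 2 ^ b) ≤ q * a)
    (f2 : q * a ≤ (1 + 2 / (8 * yZ z : ℕ)) * ((∑ I ∈ pureT ((TZ z h.hm).rl (eZ z h.hm hp))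
      ((TZ z h.hm).fs (eZ z h.hm hp)), ((h.ps hp).base (LZ z ^ EZ z)).w I) * 2 ^ b)) {u v : ℕ}
    (hu : u = a * (prodR (mZ z) (fun i => prodR (nZ z) fun j => 2 ^ de z i j) *
      prodR (mZ z + nZ z) fun u => cond (sf z u) (LZ z ^ (KZ z ^ 2 * RZ z ^ 2)) 1))
    (hv : v = LZ z ^ EZ z * ((KZ z).factorial ^ (mZ z * nZ z) * (KZ z - 1).factorial ^ (mZ z + nZ z + 1)) *
      2 ^ b * prodR (mZ z + nZ z) fun u => cond (sf z u) (2 ^ dd z u * GZ z) 1) :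
    (1 - 1 / k : ℝ) * (TS (TZ z h.hm).o (TZ z h.hm).s).card ≤ q * u / v ∧
      q * u / v ≤ (1 + 1 / k) * (TS (TZ z h.hm).o (TZ z h.hm).s).card := by
  obtain ⟨a, b, a1, a2, a3, a4, a5⟩ := h.apx
  have hM : 1 ≤ ∏ u, if (TZ z h.hm).sf u then (TZ z h.hm).D u * (TZ z h.hm).Γ (1 / LZ z) else 1 := by
    refine le_trans (by simp) (prod_le_prod (f := fun _ => (1 : ℝ)) (by simp) fun u _ => ?_)
    split_ifs
    · exact one_le_mul_of_one_le_of_one_le (by exact_mod_cast h.ok.D0 u) (Gam_one _)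
    · exact le_rfl
  have hT : (1 : ℝ) ≤ (TS (TZ z h.hm).o (TZ z h.hm).s).card := by
    exact_mod_cast TS_pos _ _ (h.ok.bal ▸ sum_le_sum_of_subset (erase_subset _ _))
  have hP : (0 : ℝ) < (∏ e, (TZ z h.hm).De e : ℕ) := by exact_mod_cast prod_pos fun e _ => h.ok.De0 e
  have e1 := h.ok2.pure (eZ z h.hm hp) (μ := μZ z) (ε := 1 / LZ z)
  have l0 : (0 : ℝ) < LZ z := by exact_mod_cast lt_of_lt_of_le (by norm_num) (L2 z)
  simp only [PS.OK.base, ← mul_sum, PZ, e1] at f1 f2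
  rw [← mul_assoc (LZ z ^ EZ z : ℕ).cast, mul_right_comm _ _ (2 ^ _)] at f1 f2
  have := fin_bound k1 (Nat.mul_le_mul_left 8 k2) (by have := L2 z; positivity) hP a1 a2 hM hT a3 a4 a5 f1 f2
  have e6 : ∏ e, (TZ z h.hm).De e = prodR (mZ z) fun i => prodR (nZ z) fun j => 2 ^ de z i j := by
    simp only [prodR, prod_range, Fintype.prod_prod_type, TZ]
  rw [e6, M_eq, show (TZ z h.hm).K = KZ z from rfl] at this
  rw [hu, hv]
  convert this using 2 <;> push_cast <;> field_simp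

theorem HZ.pure_one (h : HZ z) : 1 ≤ ∑ I ∈ pureT ((TZ z h.hm).rl (eZ z h.hm hp))
    ((TZ z h.hm).fs (eZ z h.hm hp)), ((h.ps hp).base (LZ z ^ EZ z)).w I := by
  have rep := rep_link h.ok h.ok2 (h.ps hp) (L2 z) (h.eZ_le hp)
  have := (h.final hp (q := 0) (a := 0) (b := 0) (k := 2) (by norm_num) (le_trans (by norm_num) (y100 z))
    (f2 := by
      rw [zero_mul]
      exact mul_nonneg (by positivity) (mul_nonneg (sum_nonneg fun I _ => Base.nn _ I) (by positivity)))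
    (hu := rfl) (hv := rfl) · |>.1)
  obtain ⟨I, i1, i2⟩ := exists_ne_zero_of_sum_ne_zero fun h0 => by
    have h1 := this (by rw [h0]; simp)
    have hT : (1 : ℝ) ≤ (TS (TZ z h.hm).o (TZ z h.hm).s).card := by
      exact_mod_cast TS_pos _ _ (h.ok.bal ▸ sum_le_sum_of_subset (erase_subset _ _))
    rw [zero_mul, zero_div] at h1
    norm_num at h1
    linarith
  refine le_trans ?_ (single_le_sum (fun I _ => Base.nn _ I) i1)
  obtain ⟨l, rfl⟩ := toSt_surj p I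
  rw [rep l] at i2 ⊢
  exact_mod_cast Nat.one_le_iff_ne_zero.2 (by exact_mod_cast i2)

theorem kz0_le (z : List Bool) (g : ℕ) (b : Bool) : kz0 z g b ≤ 2 * AZ z := by
  have : ∀ (b c : Bool) (A : ℕ), cond b 0 (cond c (2 * A) A) ≤ 2 * A := fun b c A => by
    cases b <;> cases c <;> simp only [cond_true, cond_false] <;> omega
  rw [kz0]; exact this _ _ _

theorem a0_le (z : List Bool) (i j : ℕ) : FZ.a0 z i j ≤ 4 * AZ z + ρZ z := by
  have a2 : ∀ a b, costN a b ≤ 2 := fun a b => by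
    unfold costN
    cases Nat.beq a b <;> cases Nat.beq a 0 <;> cases Nat.beq b 0 <;> simp
  have : ∀ a A c r : ℕ, a ≤ 2 * A → c ≤ 2 → a + A * c + r ≤ 4 * A + r := fun a A c r h1 h2 => by
    have := Nat.mul_le_mul_left A h2
    omega
  dsimp only [FZ]
  rw [a0Z]
  exact this _ _ _ _ (kz0_le _ _ _) (a2 _ _)

theorem HZ.main (h : HZ z) : ∃ (X : Base (Fin (pZ z).m)) (R Γ ζ η η0 θ : ℝ), Cond FZ z (pZ z) X R Γ ζ η η0 θ ∧
    ((pZ z).L : ℝ) * ((((pZ z).m : ℝ) ^ 2 + 2) * 2) * Real.exp (-((pZ z).Q * ζ ^ 2 / 16)) ≤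
      1 / 2 ^ lead (rest z) ∧
    ∀ H, Gd FZ z (pZ z) X ζ H (pZ z).L → ∀ k : ℕ, 1 ≤ k → k ≤ yZ z → 0 < denE (pZ z) H ∧
      (1 - 1 / k : ℝ) * (TS (TZ z h.hm).o (TZ z h.hm).s).card ≤
        numE FZ z (pZ z) H / denE (pZ z) H * cN z / cD z ∧
      (numE FZ z (pZ z) H : ℝ) / denE (pZ z) H * cN z / cD z ≤
        (1 + 1 / k) * (TS (TZ z h.hm).o (TZ z h.hm).s).card := by
  have hy := y100 z
  have hk : 1 ≤ 8 * yZ z := by omega
  have hp := pZ_m z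
  have hN : (pZ z).m = NZ z := by rw [hp, NZ]
  have hcN : cN z = wBZ z (init FZ z (pZ z)) * 2 ^ sumR (pZ z).m (fun g => kz0 z g (sgZ z g)) *
    (prodR (mZ z) (fun i => prodR (nZ z) fun j => 2 ^ de z i j) *
      prodR (mZ z + nZ z) fun u => cond (sf z u) (LZ z ^ (KZ z ^ 2 * RZ z ^ 2)) 1) := by rw [cN, hN]
  have hcD : cD z = LZ z ^ EZ z * ((KZ z).factorial ^ (mZ z * nZ z) *
      (KZ z - 1).factorial ^ (mZ z + nZ z + 1)) *
    2 ^ sumR (pZ z).m (fun g => fld FZ z (pZ z) (pZ z).L g (fsZ z g)) *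
      prodR (mZ z + nZ z) fun u => cond (sf z u) (2 ^ dd z u * GZ z) 1 := by rw [cD, hN]
  have hA := A_big (n := NZ z) (R := yZ z ^ 441) (wb := yZ z ^ 210) hk
  have hY := k_le_Y (n := NZ z) (R := yZ z ^ 441) (k := 8 * yZ z) (wb := yZ z ^ 210)
  have hF := fail_le (n := NZ z) (R := yZ z ^ 441) (wb := yZ z ^ 210) (s := ρZ z) (l := lead (rest z)) hk
  have hC := @cond_mkP (NZ z) (yZ z ^ 441) (8 * yZ z) (yZ z ^ 210) (ρZ z) (lead (rest z)) FZ z
  have hL : (pZ z).L = Ln (NZ z) (yZ z ^ 441) (8 * yZ z) (yZ z ^ 210) := by rw [pZ, mkP_L]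
  have hr : (pZ z).r = 0 := by rw [pZ, mkP_r]
  have hpA : (pZ z).A = AZ z := by rw [pZ, AZ, mkP_A]
  rw [← AZ] at hA hC
  rw [← pZ] at hF hC
  rw [← hL] at hC
  generalize pZ z = p at *
  generalize Yn (NZ z) (yZ z ^ 441) (8 * yZ z) (yZ z ^ 210) = Y at *
  have Y0 : ((8 * yZ z : ℕ) : ℝ) ≤ Y := by exact_mod_cast hY
  have y1 : (1 : ℝ) ≤ (8 * yZ z : ℕ) := by exact_mod_cast hk
  have η1 : (1 : ℝ) / (4 * Y) ≤ 1 / (4 * (8 * yZ z : ℕ)) := by gcongr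
  have η2 : (1 : ℝ) / (4 * Y) ≤ 1 := by rw [div_le_one (by linarith)]; linarith
  obtain ⟨wb, w1, ρ, w2, lay⟩ := h.lay hp
  have hA' : (2 : ℝ) ^ Fintype.card (Fin p.m) * 2 ^ wb ≤ 1 / (4 * Y) * 2 ^ AZ z := by
    rw [Fintype.card_fin, hN]
    exact le_trans (by gcongr; norm_num) hA
  have rep := rep_link h.ok h.ok2 (h.ps hp) (L2 z) (h.eZ_le hp)
  have e3 := h.pure_one hp
  obtain ⟨z1, z2⟩ := lay.Z0 hA'
  rw [← kI_eq h.ok2, ← S0_eq h.ok2] at z1 z2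
  have C := hC hk rep (fun I => (lay.ub I).trans (by gcongr; norm_num)) (fun v => kz0_le _ _ _)
    (a0_le z) (by
      simp only [kI_eq (hp := hp) h.ok2, a0_eq (hp := hp) h.ok2]
      exact lay.good hA' η2 w2 (h.R_le hp)) z2
  refine ⟨_, _, _, _, _, _, _, C, hF, fun H hG k k1 k2 => ?_⟩
  obtain ⟨d0, c1, c2⟩ := C.acc hG
  obtain ⟨l1, l2⟩ := ZL_bounds (σ := (TZ z h.hm).σ (eZ z h.hm hp)) lay.ub hA' ((TZ z h.hm).fs (eZ z h.hm hp))
    (Tb.fs_rl _) (k := kf FZ z p p.L) fun v => by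
      rw [kf_L hr, kI_eq (hp := hp) h.ok2, hpA, fs_eq]; rfl
  obtain ⟨f1, f2⟩ := est_bound hk p.L (by positivity) η1 (by positivity) (by positivity) z1 z2 l1
    (l2.trans (by rw [add_mul, one_mul]; gcongr; exact le_mul_of_one_le_left (by positivity) e3)) c1 c2
  have e4 : wt ((h.ps hp).base (LZ z ^ EZ z)) (kI FZ z p) (S0 FZ z p) =
      (wBZ z (init FZ z p) * 2 ^ sumR p.m (fun g => kz0 z g (sgZ z g)) : ℕ) := by
    rw [wt, kI_eq (hp := hp) h.ok2, ← toSt_init, rep, toSt_init, S0_eq (hp := hp) h.ok2, fe_sS, sumR_fin]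
    simp only [kz_eq h.ok2, sg_eq h.ok2, Nat.cast_mul, Nat.cast_pow, Nat.cast_ofNat]
    dsimp only [FZ]
  have e5 : fe (kf FZ z p p.L) (sS ((TZ z h.hm).fs (eZ z h.hm hp))) =
      sumR p.m fun g => fld FZ z p p.L g (fsZ z g) := by
    rw [fe_sS, sumR_fin]; simp only [kf, fs_eq]
  rw [e4, e5] at f1 f2
  exact ⟨d0, h.final hp k1 k2 f1 f2 hcN hcD⟩

theorem cD_pos (hm : 0 < mZ z) : 0 < cD z := by
  have := L2 z
  have G3 := GZ_pos hm
  rw [cD]
  exact Nat.mul_pos (by positivity) (prod_pos fun u _ => by cases sf z u <;> simp [G3])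

end Vale.Agent.P328
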