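import Vale.Agent.P328.Algo
import Vale.Agent.P328.Anneal
import Vale.Agent.P317.Params

/-! Semantics of one move of the algorithm. -/

namespace Vale.Agent.P328

open Finset Vale.Agent.P317

variable (F : Fam) (z : List Bool) (p : Par)

def kf (t : ℕ) : Fin p.m × Bool → ℕ := fun v => fld F z p t v.1 v.2

noncomputable def hf (H : ℕ → List Bool) (t : ℕ) : Fin p.m → Fin p.m → ℝ :=
  fun i j => 2 ^ aexp F z p H t i j / 2 ^ p.L

def ex (H : ℕ → List Bool) (t : ℕ) (I : Finset (Fin p.m × Bool)) : ℕ :=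
  fe (kf F z p t) I + ((if I ∈ trans univ then p.L else 0) +
    ∑ i, ∑ j, if I ∈ Nset i j then aexp F z p H t i j else 0)

theorem expo_eq (H : ℕ → List Bool) (t : ℕ) (l : List Bool) :
    expo F z p H t l = ex F z p H t (toSt p l) := by
  have : fe (kf F z p t) (toSt p l) = ∑ v, if v ∈ toSt p l then kf F z p t v else 0 := by
    rw [fe, ← sum_filter]; simp
  simp only [expo, ex, sumR_fin, cond_ite isT_iff, cond_ite isN_iff, cond_ite mem_toSt0.symm,
    cond_ite mem_toSt1.symm, this, Fintype.sum_prod_type, Fintype.sum_bool, kf]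

theorem typ_iff {l : List Bool} : typ p l = true ↔
    toSt p l ∈ trans univ ∨ ∃ i j, toSt p l ∈ Nset i j := by
  simp only [typ, Bool.or_eq_true, isT_iff, Bool.not_eq_true', ← Bool.not_eq_true, allR_iff, ← isN_iff]
  refine or_congr_right ?_
  push Not
  simp only [Fin.exists_iff, Bool.not_eq_true', ne_eq, Bool.not_eq_false, exists_prop]

theorem toSt_surj (I : Finset (Fin p.m × Bool)) : ∃ l, toSt p l = I := by
  refine ⟨mapR (2 * p.m) fun v => decide (∃ x ∈ I, v = 2 * x.1.val + b2n x.2), ?_⟩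
  ext ⟨g, b⟩
  have := g.2
  rw [mem_toSt, bit_mapR _ (by cases b <;> simp only [b2n, cond_true, cond_false] <;> omega),
    decide_eq_true_eq]
  refine ⟨fun ⟨⟨g', b'⟩, h1, h2⟩ => ?_, fun h => ⟨_, h, rfl⟩⟩
  have : g = g' ∧ b = b' := by
    rw [Fin.ext_iff]
    cases b <;> cases b' <;> simp [b2n] at h2 ⊢ <;> omega
  rw [this.1, this.2]; exact h1

variable (X : Base (Fin p.m))

noncomputable def Wt (H : ℕ → List Bool) (t : ℕ) : Finset (Fin p.m × Bool) → ℝ :=
  Wk X (kf F z p t) (hf F z p H t)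

noncomputable def WN (H : ℕ → List Bool) (t : ℕ) (I : Finset (Fin p.m × Bool)) : ℕ :=
  ⌊Wt F z p X H t I * 2 ^ p.L⌋₊

noncomputable def accp (H : ℕ → List Bool) (t : ℕ) (I J : Finset (Fin p.m × Bool)) : ℝ :=
  WN F z p X H t J / 2 ^ (max (WN F z p X H t I) (WN F z p X H t J)).size

def Rep : Prop := ∀ l, X.w (toSt p l) = F.wB z l

variable {F z p X} (hr : Rep F z p X)
include hr

theorem Wt_toSt (H : ℕ → List Bool) (t : ℕ) (l : List Bool) :
    Wt F z p X H t (toSt p l) * 2 ^ p.L = Wi F z p H t l := by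
  classical
  rw [Wi, cond_ite (typ_iff p), expo_eq, Wt, Wk, wt, hr l, ex]
  rcases type_cases (toSt p l) with h1 | ⟨i, j, h1⟩ | ⟨h1, h2⟩
  · have : ∀ i j, toSt p l ∉ Nset i j := fun i j h => not_T_of_N h h1
    simp [tau_T _ h1, h1, this, pow_add, mul_assoc]
  · rw [tau_N _ h1, if_pos (Or.inr ⟨i, j, h1⟩), if_neg (not_T_of_N h1),
      sum_ite_N (fun i j : Fin p.m => aexp F z p H t i j) h1, hf, zero_add]
    push_cast
    rw [pow_add]
    field_simp
  · rw [tau_O _ h1 h2]; simp [h1, h2]

theorem WN_toSt (H : ℕ → List Bool) (t : ℕ) (l : List Bool) :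
    WN F z p X H t (toSt p l) = Wi F z p H t l := by
  rw [WN, Wt_toSt hr, Nat.floor_natCast]

theorem WN_cast (H : ℕ → List Bool) (t : ℕ) (I : Finset (Fin p.m × Bool)) :
    Wt F z p X H t I = WN F z p X H t I / 2 ^ p.L := by
  obtain ⟨l, rfl⟩ := toSt_surj p I
  rw [WN_toSt hr, ← Wt_toSt hr]; field_simp

theorem metro (hκ : 2 * p.m ≤ 2 ^ p.κ) (H : ℕ → List Bool) (t : ℕ) :
    Metro (Wt F z p X H t) (cP p) (accp F z p X H t) := by
  refine ⟨fun I => Wk_nonneg (fun i j => by unfold hf; positivity) I, by unfold cP; positivity, ?_,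
    fun I J => by unfold accp; positivity, fun I J => ?_, fun I J => ?_, fun I J => ?_⟩
  · have h : (2 * p.m : ℝ) ≤ 2 ^ p.κ := by exact_mod_cast hκ
    simp only [cP, Fintype.card_prod, Fintype.card_fin, Fintype.card_bool, Nat.cast_mul, Nat.cast_ofNat]
    rw [div_mul_eq_mul_div, div_le_iff₀ (by positivity)]
    have : (0 : ℝ) ≤ p.m := Nat.cast_nonneg _
    nlinarith
  · rw [accp, div_le_one (by positivity)]
    exact_mod_cast (le_max_right _ _).trans (Nat.lt_size_self _).le
  · simp only [WN_cast hr, accp, max_comm (WN F z p X H t J)]; ring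
  · simp only [WN_cast hr, accp]
    generalize WN F z p X H t I = a
    generalize WN F z p X H t J = b
    have h1 : ((2 ^ (max a b).size : ℕ) : ℝ) * (min a b : ℕ) ≤ (2 * (a * b) : ℕ) := by
      rw [← Nat.cast_mul, Nat.cast_le, ← min_mul_max a b]
      rcases Nat.eq_zero_or_pos (max a b) with h | h
      · have : min a b = 0 := by omega
        simp [this]
      · have : 2 ^ (max a b).size ≤ 2 * max a b := by
          obtain ⟨j, hj⟩ : ∃ j, (max a b).size = j + 1 := ⟨_, (Nat.succ_pred (Nat.size_pos.2 h).ne').symm⟩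
          have : 2 ^ j ≤ max a b := Nat.lt_size.1 (by omega)
          rw [hj, pow_succ]; omega
        exact (Nat.mul_le_mul_right _ this).trans (le_of_eq (by ring))
    rw [min_div_div_right (by positivity), div_mul_div_comm, ← mul_div_assoc,
      div_le_div_iff₀ (by positivity) (by positivity)]
    push_cast at h1
    nlinarith [mul_le_mul_of_nonneg_right h1 (show (0 : ℝ) ≤ 2 ^ p.L by positivity)]

variable (F z p X) in
open Classical in
noncomputable def mv (H : ℕ → List Bool) (t : ℕ) (I : Finset (Fin p.m × Bool)) (u : ℕ) (b : Bool)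
    (v : ℕ) (b' : Bool) (y : List Bool) : Finset (Fin p.m × Bool) :=
  if h : u < p.m ∧ v < p.m then
    if ((⟨u, h.1⟩, b) ∈ I ∧ (⟨v, h.2⟩, b') ∉ I) ∧ valU (y.take (max (WN F z p X H t I)
      (WN F z p X H t (swp I (⟨u, h.1⟩, b) (⟨v, h.2⟩, b')))).size) <
        WN F z p X H t (swp I (⟨u, h.1⟩, b) (⟨v, h.2⟩, b'))
    then swp I (⟨u, h.1⟩, b) (⟨v, h.2⟩, b') else I
  else I

theorem toSt_move (H : ℕ → List Bool) (t : ℕ) (l c : List Bool) :
    toSt p (move F z p H t l c) = mv F z p X H t (toSt p l) (valU (c.take p.κ)) (bit c p.κ)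
      (valU ((c.drop (p.κ + 1)).take p.κ)) (bit (c.drop (p.κ + 1)) p.κ)
      ((c.drop (p.κ + 1)).drop (p.κ + 1)) := by
  have e1 : bit (c.drop (p.κ + 1)) p.κ = bit c (2 * p.κ + 1) := by
    simp only [bit, List.getD_eq_getElem?_getD, List.getElem?_drop]; congr 2; ring
  have e2 : (c.drop (p.κ + 1)).drop (p.κ + 1) = c.drop (2 * p.κ + 2) := by
    rw [List.drop_drop]; congr 1; ring
  rw [move, toSt_mapR, e1, e2, mv]
  have g1 : gp p c = min (valU (c.take p.κ)) p.m := valB_eq _ _
  have g2 : gs p c = min (valU ((c.drop (p.κ + 1)).take p.κ)) p.m := valB_eq _ _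
  split_ifs with h h2
  · have hu : gp p c = (⟨_, h.1⟩ : Fin p.m) := by rw [g1]; exact min_eq_left h.1.le
    have hv : gs p c = (⟨_, h.2⟩ : Fin p.m) := by rw [g2]; exact min_eq_left h.2.le
    have hp := toSt_prop l c hu hv
    rw [← hp] at h2 ⊢
    have : okm F z p H t l c = true := by
      simp only [okm, Bool.and_eq_true (_ && _), decide_eq_true_eq, ← WN_toSt hr]
      refine ⟨?_, h2.2⟩
      simp only [mem_toSt] at h2
      simp only [ixp, ixs, hu, hv, Bool.and_eq_true, Nat.ble_eq, Bool.not_eq_true', ← Bool.not_eq_true]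
      exact ⟨h.1, h.2, h2.1⟩
    rw [this, cond_true]
  · have hu : gp p c = (⟨_, h.1⟩ : Fin p.m) := by rw [g1]; exact min_eq_left h.1.le
    have hv : gs p c = (⟨_, h.2⟩ : Fin p.m) := by rw [g2]; exact min_eq_left h.2.le
    have hp := toSt_prop l c hu hv
    rw [← hp] at h2
    have : okm F z p H t l c = false := by
      rw [← Bool.not_eq_true]
      intro h3
      simp only [okm, Bool.and_eq_true (_ && _), decide_eq_true_eq, ← WN_toSt hr] at h3
      refine h2 ⟨?_, h3.2⟩
      simp only [mem_toSt]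
      simp only [ixp, ixs, hu, hv, Bool.and_eq_true, Nat.ble_eq, Bool.not_eq_true', ← Bool.not_eq_true] at h3
      exact h3.1.2.2
    rw [this, cond_false]
  · have : okm F z p H t l c = false := by
      rw [← Bool.not_eq_true]
      intro h3
      simp only [okm, Bool.and_eq_true, Nat.ble_eq] at h3
      omega
    rw [this, cond_false]

omit hr in
theorem Ex_lt {s d a : ℕ} (h : s ≤ d) (ha : a ≤ 2 ^ s) (x y : ℝ) :
    Ex d (fun l => if valU (l.take s) < a then x else y) = y + a / 2 ^ s * (x - y) := by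
  obtain ⟨k, rfl⟩ := Nat.exists_eq_add_of_le h
  rw [Ex_append, Ex_congr (g := fun l => if valU l < a then x else y) fun l hl => by
    simp only [List.take_left' hl, Ex_const], Ex_val s fun v => if v < a then x else y]
  have : ∀ v, (if v < a then x else y) = y + if v < a then x - y else 0 := fun v => by
    split_ifs <;> ring
  have e : (range (2 ^ s)).filter (· < a) = range a := by ext v; simp; omega
  simp only [this, sum_add_distrib, ← sum_filter, e, sum_const, card_range, nsmul_eq_mul]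
  push_cast
  field_simp

theorem Ex_move (hκ : 2 * p.m ≤ 2 ^ p.κ) (H : ℕ → List Bool) (t : ℕ) (l : List Bool) {b0 : ℕ}
    (hb : ∀ I, WN F z p X H t I < 2 ^ b0) (hcs : 2 * p.κ + 2 + b0 ≤ p.cs)
    (f : Finset (Fin p.m × Bool) → ℝ) :
    Ex p.cs (fun c => f (toSt p (move F z p H t l c))) =
      Pop (cP p) (accp F z p X H t) f (toSt p l) := by
  classical
  obtain ⟨d, hd⟩ : ∃ d, p.cs = p.κ + (1 + (p.κ + (1 + d))) := ⟨p.cs - (2 * p.κ + 2), by omega⟩
  set I := toSt p l
  simp only [toSt_move hr]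
  rw [hd, Ex_pick p.κ _ fun u b c =>
    f (mv F z p X H t I u b (valU (c.take p.κ)) (bit c p.κ) (c.drop (p.κ + 1)))]
  simp only [fun u b => Ex_pick p.κ d fun v b' y => f (mv F z p X H t I u b v b' y)]
  let D : Fin p.m × Bool → Fin p.m × Bool → ℝ := fun P S =>
    if P ∈ I ∧ S ∉ I then accp F z p X H t I (swp I P S) * (f (swp I P S) - f I) else 0
  have e : ∀ u b v b', Ex d (fun y => f (mv F z p X H t I u b v b' y)) = f I +
      if hu : u < p.m then (if hv : v < p.m then D (⟨u, hu⟩, b) (⟨v, hv⟩, b') else 0) else 0 := by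
    intro u b v b'
    by_cases hu : u < p.m
    swap
    · simp [mv, hu, Ex_const]
    by_cases hv : v < p.m
    swap
    · simp [mv, hv, Ex_const]
    simp only [mv, hu, hv, and_self, dif_pos, D, accp]
    by_cases h1 : (⟨u, hu⟩, b) ∈ I ∧ (⟨v, hv⟩, b') ∉ I
    swap
    · simp only [h1, false_and, if_false, Ex_const, add_zero]
    simp only [h1, true_and, apply_ite f, not_false_eq_true, if_true]
    rw [Ex_lt (le_trans (Nat.size_le.2 (max_lt (hb _) (hb _))) (by omega))
      ((le_max_right _ _).trans (Nat.lt_size_self _).le)]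
  simp only [e, sum_add_distrib, sum_const, card_range, card_univ, Fintype.card_bool, nsmul_eq_mul]
  have hm : p.m ≤ 2 ^ p.κ := by omega
  have e2 : ∀ u b, (∑ v ∈ range (2 ^ p.κ), ∑ b', if hu : u < p.m then
      (if hv : v < p.m then D (⟨u, hu⟩, b) (⟨v, hv⟩, b') else 0) else 0) =
      if hu : u < p.m then ∑ S, D (⟨u, hu⟩, b) S else 0 := by
    intro u b
    by_cases hu : u < p.m
    · simp only [hu, dif_pos]
      rw [sum_comm, Fintype.sum_prod_type_right]
      exact sum_congr rfl fun b' _ => sum_range_dite hm fun g => D (⟨u, hu⟩, b) (g, b')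
    · simp [hu]
  simp only [e2, ← sum_div, sum_add_distrib, sum_const, card_range, card_univ, Fintype.card_bool,
    nsmul_eq_mul]
  rw [sum_comm, sum_congr rfl fun b _ => sum_range_dite hm fun g => ∑ S, D (g, b) S,
    ← Fintype.sum_prod_type_right fun P : Fin p.m × Bool => ∑ S, D P S, Pop_apply, cP]
  push_cast
  field_simp
  rfl

end Vale.Agent.P328
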